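import Mathlib.LinearAlgebra.Matrix.Symmetric
import Mathlib.Analysis.SpecificLimits.Basic
import Mathlib.Tactic

set_option linter.all false

/-!
Long subdivisions: even powers of a symmetric nonnegative matrix are nearly of rank one on the
classes of connected vertices.
-/

open Finset

namespace Vale.Agent.P050.Opt

namespace H111

variable {X : Type} [Fintype X] [DecidableEq X] {A B : Matrix X X ℝ}

lemma pow_nn (h0 : ∀ x y, 0 ≤ A x y) (k : ℕ) (x y : X) : 0 ≤ (A ^ k) x y := by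
  induction k generalizing x y with
  | zero =>
    rw [pow_zero, Matrix.one_apply]
    split_ifs <;> norm_num
  | succ k ih =>
    rw [pow_succ, Matrix.mul_apply]
    exact sum_nonneg fun z _ => mul_nonneg (ih x z) (h0 z y)

lemma pow_sym (hs : ∀ x y, A x y = A y x) (k : ℕ) (x y : X) : (A ^ k) x y = (A ^ k) y x := by
  have h : A.transpose = A := by
    ext i j
    exact hs j i
  have h2 : (A ^ k).transpose = A ^ k := by rw [Matrix.transpose_pow, h]
  calc (A ^ k) x y = (A ^ k).transpose y x := rfl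
    _ = (A ^ k) y x := by rw [h2]

lemma pow_ge_mul (h0 : ∀ x y, 0 ≤ A x y) (j k : ℕ) (x z y : X) :
    (A ^ j) x z * (A ^ k) z y ≤ (A ^ (j + k)) x y := by
  rw [pow_add, Matrix.mul_apply]
  exact single_le_sum (f := fun z => (A ^ j) x z * (A ^ k) z y)
    (fun z _ => mul_nonneg (pow_nn h0 j x z) (pow_nn h0 k z y)) (mem_univ z)

/-- powers vanish between a class and its complement -/
lemma pow_class {p : X → Prop} (hC : ∀ a z, p a → ¬ p z → B a z = 0) (k : ℕ) (a z : X)
    (ha : p a) (hz : ¬ p z) : (B ^ k) a z = 0 := by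
  induction k generalizing a with
  | zero =>
    rw [pow_zero, Matrix.one_apply_ne]
    rintro rfl
    exact hz ha
  | succ k ih =>
    rw [pow_succ', Matrix.mul_apply]
    refine sum_eq_zero fun w _ => ?_
    by_cases hw : p w
    · rw [ih w hw, mul_zero]
    · rw [hC a w ha hw, zero_mul]

/-- two columns are comparable with the constants `lo`, `hi` -/
def Cmp (B : Matrix X X ℝ) (p : X → Prop) (y b : X) (k : ℕ) (lo hi : ℝ) : Prop :=
  ∀ a, p a → lo * (B ^ k) a b ≤ (B ^ k) a y ∧ (B ^ k) a y ≤ hi * (B ^ k) a b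

lemma Cmp.succ {p : X → Prop} (h0 : ∀ x y, 0 ≤ B x y) (hC : ∀ a z, p a → ¬ p z → B a z = 0)
    {y b : X} {k : ℕ} {lo hi : ℝ} (h : Cmp B p y b k lo hi) : Cmp B p y b (k + 1) lo hi := by
  intro a ha
  rw [pow_succ', Matrix.mul_apply, Matrix.mul_apply, mul_sum, mul_sum]
  constructor
  · refine sum_le_sum fun z _ => ?_
    by_cases hz : p z
    · have := mul_le_mul_of_nonneg_left (h z hz).1 (h0 a z)
      linarith
    · rw [hC a z ha hz]
      simp
  · refine sum_le_sum fun z _ => ?_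
    by_cases hz : p z
    · have := mul_le_mul_of_nonneg_left (h z hz).2 (h0 a z)
      linarith
    · rw [hC a z ha hz]
      simp

lemma Cmp.mono {p : X → Prop} (h0 : ∀ x y, 0 ≤ B x y) (hC : ∀ a z, p a → ¬ p z → B a z = 0)
    {y b : X} {k l : ℕ} {lo hi : ℝ} (h : Cmp B p y b k lo hi) (hkl : k ≤ l) :
    Cmp B p y b l lo hi := by
  induction l, hkl using Nat.le_induction with
  | base => exact h
  | succ l _ ih => exact ih.succ h0 hC

/-- rows of a power which is positive on the class are comparable -/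
lemma rows_cmp {p : X → Prop} (hC : ∀ a z, p a → ¬ p z → B a z = 0) {N : ℕ} {m M : ℝ}
    (hm : 0 < m) (hQ : ∀ a z, p a → p z → m ≤ (B ^ N) a z ∧ (B ^ N) a z ≤ M) {f : X → ℝ}
    (hf : ∀ z, p z → 0 ≤ f z) (a a' : X) (ha : p a) (ha' : p a') :
    ∑ z, (B ^ N) a z * f z ≤ M / m * ∑ z, (B ^ N) a' z * f z := by
  rw [mul_sum]
  refine sum_le_sum fun z _ => ?_
  by_cases hz : p z
  · have h1 : (B ^ N) a z ≤ M / m * (B ^ N) a' z := by
      have h2 := (hQ a z ha hz).2
      have h3 := (hQ a' z ha' hz).1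
      have hM : 0 ≤ M := hm.le.trans ((hQ a z ha hz).1.trans h2)
      calc (B ^ N) a z ≤ M := h2
        _ = M / m * m := by field_simp
        _ ≤ M / m * (B ^ N) a' z := mul_le_mul_of_nonneg_left h3 (by positivity)
    have := mul_le_mul_of_nonneg_right h1 (hf z hz)
    linarith
  · rw [pow_class hC N a z ha hz, pow_class hC N a' z ha' hz]
    simp

/-- one step of the contraction -/
lemma Cmp.contract {p : X → Prop} (h0 : ∀ x y, 0 ≤ B x y)
    (hC : ∀ a z, p a → ¬ p z → B a z = 0) {N : ℕ} {m M : ℝ} (hm : 0 < m)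
    (hQ : ∀ a z, p a → p z → m ≤ (B ^ N) a z ∧ (B ^ N) a z ≤ M) {y b a₀ : X} (ha₀ : p a₀)
    {k : ℕ} {lo hi : ℝ} (hlh : lo ≤ hi) (h : Cmp B p y b k lo hi) :
    ∃ lo' hi' : ℝ, lo ≤ lo' ∧ lo' ≤ hi' ∧
      hi' - lo' ≤ (1 - 1 / (2 * (M / m) ^ 2)) * (hi - lo) ∧ Cmp B p y b (N + k) lo' hi' := by
  have hmM : m ≤ M := (hQ a₀ a₀ ha₀ ha₀).1.trans (hQ a₀ a₀ ha₀ ha₀).2
  set K : ℝ := M / m with hK
  have hK1 : 1 ≤ K := by rw [hK, le_div_iff₀ hm]; linarith
  have hK0 : 0 < K := by linarith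
  set θ : ℝ := 1 / (2 * K ^ 2) with hθ
  have hθ0 : 0 < θ := by positivity
  have hθ1 : θ ≤ 1 := by
    rw [hθ, div_le_one (by positivity)]
    nlinarith
  have hexp : ∀ a w, (B ^ (N + k)) a w = ∑ z, (B ^ N) a z * (B ^ k) z w := by
    intro a w
    rw [pow_add, Matrix.mul_apply]
  have hcT : ∀ a, (B ^ (N + k)) a y - lo * (B ^ (N + k)) a b =
      ∑ z, (B ^ N) a z * ((B ^ k) z y - lo * (B ^ k) z b) := by
    intro a
    rw [hexp, hexp, mul_sum, ← sum_sub_distrib]
    exact sum_congr rfl fun z _ => by ring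
  have hcS : ∀ a, hi * (B ^ (N + k)) a b - (B ^ (N + k)) a y =
      ∑ z, (B ^ N) a z * (hi * (B ^ k) z b - (B ^ k) z y) := by
    intro a
    rw [hexp, hexp, mul_sum, ← sum_sub_distrib]
    exact sum_congr rfl fun z _ => by ring
  have hT := fun a a' ha ha' => rows_cmp hC hm hQ
    (f := fun z => (B ^ k) z y - lo * (B ^ k) z b) (fun z hz => sub_nonneg.2 (h z hz).1) a a'
    ha ha'
  have hS := fun a a' ha ha' => rows_cmp hC hm hQ
    (f := fun z => hi * (B ^ k) z b - (B ^ k) z y) (fun z hz => sub_nonneg.2 (h z hz).2) a a'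
    ha ha'
  have hc := fun a a' ha ha' => rows_cmp hC hm hQ
    (f := fun z => (B ^ k) z b) (fun z _ => pow_nn h0 k z b) a a' ha ha'
  simp only [← hcT, ← hcS, ← hexp] at hT hS hc
  have hδ : 0 ≤ hi - lo := sub_nonneg.2 hlh
  have hall : ∀ F : X → ℝ, (∀ a a', p a → p a' → F a ≤ K * F a') →
      (hi - lo) / 2 * (B ^ (N + k)) a₀ b ≤ F a₀ →
      ∀ a, p a → θ * (hi - lo) * (B ^ (N + k)) a b ≤ F a := by
    intro F hF h1 a ha
    have h2 : (B ^ (N + k)) a b ≤ K * (B ^ (N + k)) a₀ b := hc a a₀ ha ha₀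
    have h3 : F a₀ ≤ K * F a := hF a₀ a ha₀ ha
    have h4 : (hi - lo) / 2 * (B ^ (N + k)) a b ≤ K ^ 2 * F a := by
      calc (hi - lo) / 2 * (B ^ (N + k)) a b
          ≤ (hi - lo) / 2 * (K * (B ^ (N + k)) a₀ b) :=
            mul_le_mul_of_nonneg_left h2 (by linarith)
        _ = K * ((hi - lo) / 2 * (B ^ (N + k)) a₀ b) := by ring
        _ ≤ K * (K * F a) := mul_le_mul_of_nonneg_left (h1.trans h3) hK0.le
        _ = K ^ 2 * F a := by ring
    have h5 : θ * (hi - lo) * (B ^ (N + k)) a b =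
        ((hi - lo) / 2 * (B ^ (N + k)) a b) / K ^ 2 := by
      rw [hθ]
      field_simp
    rw [h5, div_le_iff₀ (by positivity)]
    linarith
  rcases le_total ((hi - lo) / 2 * (B ^ (N + k)) a₀ b)
    ((B ^ (N + k)) a₀ y - lo * (B ^ (N + k)) a₀ b) with h1 | h1
  · refine ⟨lo + θ * (hi - lo), hi, ?_, ?_, ?_, fun a ha => ⟨?_, ?_⟩⟩
    · have := mul_nonneg hθ0.le hδ
      linarith
    · nlinarith
    · linarith
    · have h2 := hall (fun a => (B ^ (N + k)) a y - lo * (B ^ (N + k)) a b) hT h1 a ha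
      linarith
    · exact (h.mono h0 hC (Nat.le_add_left k N) a ha).2
  · have h1' : (hi - lo) / 2 * (B ^ (N + k)) a₀ b ≤
        hi * (B ^ (N + k)) a₀ b - (B ^ (N + k)) a₀ y := by linarith
    refine ⟨lo, hi - θ * (hi - lo), le_rfl, ?_, ?_, fun a ha => ⟨?_, ?_⟩⟩
    · nlinarith
    · linarith
    · exact (h.mono h0 hC (Nat.le_add_left k N) a ha).1
    · have h2 := hall (fun a => hi * (B ^ (N + k)) a b - (B ^ (N + k)) a y) hS h1' a ha
      linarith

/-- the columns become proportional -/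
lemma cmp_limit {p : X → Prop} (h0 : ∀ x y, 0 ≤ B x y)
    (hC : ∀ a z, p a → ¬ p z → B a z = 0) {N : ℕ}
    (hN : ∀ a z, p a → p z → 0 < (B ^ N) a z) {y b : X} (hy : p y) (hb : p b) {ε : ℝ}
    (hε : 0 < ε) :
    ∃ K : ℕ, ∀ k ≥ K, ∀ x a, p x → p a →
      (B ^ k) x y * (B ^ k) a b ≤ (1 + ε) * ((B ^ k) x b * (B ^ k) a y) := by
  classical
  haveI : Nonempty {x // p x} := ⟨⟨y, hy⟩⟩
  obtain ⟨u, hu⟩ := Finite.exists_min (fun q : {x // p x} × {x // p x} => (B ^ N) q.1 q.2)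
  obtain ⟨v, hv⟩ := Finite.exists_max (fun q : {x // p x} × {x // p x} => (B ^ N) q.1 q.2)
  set m := (B ^ N) u.1 u.2 with hm
  set M := (B ^ N) v.1 v.2 with hM
  have hm0 : 0 < m := hN _ _ u.1.2 u.2.2
  have hQ : ∀ a z, p a → p z → m ≤ (B ^ N) a z ∧ (B ^ N) a z ≤ M := fun a z ha hz =>
    ⟨hu (⟨a, ha⟩, ⟨z, hz⟩), hv (⟨a, ha⟩, ⟨z, hz⟩)⟩
  have hmM : m ≤ M := hu v
  have hM0 : 0 < M := hm0.trans_le hmM
  -- the start
  have hstart : Cmp B p y b N (m / M) (M / m) := by
    intro a ha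
    obtain ⟨h1, h2⟩ := hQ a b ha hb
    obtain ⟨h3, h4⟩ := hQ a y ha hy
    constructor
    · calc m / M * (B ^ N) a b ≤ m / M * M := mul_le_mul_of_nonneg_left h2 (by positivity)
        _ = m := by field_simp
        _ ≤ _ := h3
    · calc (B ^ N) a y ≤ M := h4
        _ = M / m * m := by field_simp
        _ ≤ _ := mul_le_mul_of_nonneg_left h1 (by positivity)
  have hlh : m / M ≤ M / m := by
    have h1 : m / M ≤ 1 := by rw [div_le_one hM0]; exact hmM
    have h2 : 1 ≤ M / m := by rw [le_div_iff₀ hm0]; linarith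
    linarith
  set r : ℝ := 1 - 1 / (2 * (M / m) ^ 2) with hr
  have hK1 : 1 ≤ M / m := by rw [le_div_iff₀ hm0]; linarith
  have hr0 : 0 ≤ r := by
    rw [hr, sub_nonneg, div_le_one (by positivity)]
    nlinarith
  have hr1 : r < 1 := by
    rw [hr]
    have : 0 < 1 / (2 * (M / m) ^ 2) := by positivity
    linarith
  have hiter : ∀ n : ℕ, ∃ lo hi : ℝ, m / M ≤ lo ∧ lo ≤ hi ∧
      hi - lo ≤ r ^ n * (M / m - m / M) ∧ ∃ k, Cmp B p y b k lo hi := by
    intro n
    induction n with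
    | zero => exact ⟨m / M, M / m, le_rfl, hlh, by rw [pow_zero, one_mul], N, hstart⟩
    | succ n ih =>
      obtain ⟨lo, hi, h1, h2, h3, k, h4⟩ := ih
      obtain ⟨lo', hi', g1, g2, g3, g4⟩ := h4.contract h0 hC hm0 hQ hy h2
      refine ⟨lo', hi', h1.trans g1, g2, g3.trans ?_, N + k, g4⟩
      calc r * (hi - lo) ≤ r * (r ^ n * (M / m - m / M)) := mul_le_mul_of_nonneg_left h3 hr0
        _ = r ^ (n + 1) * (M / m - m / M) := by ring
  obtain ⟨n, hn⟩ := exists_pow_lt_of_lt_one (show (0:ℝ) < ε * (m / M) / (M / m - m / M + 1) by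
    have : 0 ≤ M / m - m / M := sub_nonneg.2 hlh
    positivity) hr1
  obtain ⟨lo, hi, h1, h2, h3, K, h4⟩ := hiter n
  have hlo0 : 0 < lo := lt_of_lt_of_le (by positivity) h1
  have hhi : hi ≤ (1 + ε) * lo := by
    have hd : 0 ≤ M / m - m / M := sub_nonneg.2 hlh
    have e1 : r ^ n * (M / m - m / M) ≤ ε * (m / M) := by
      calc r ^ n * (M / m - m / M)
          ≤ ε * (m / M) / (M / m - m / M + 1) * (M / m - m / M) :=
            mul_le_mul_of_nonneg_right hn.le hd
        _ = ε * (m / M) * ((M / m - m / M) / (M / m - m / M + 1)) := by ring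
        _ ≤ ε * (m / M) * 1 := by
            refine mul_le_mul_of_nonneg_left ?_ (by positivity)
            rw [div_le_one (by linarith)]
            linarith
        _ = _ := mul_one _
    have e2 : ε * (m / M) ≤ ε * lo := mul_le_mul_of_nonneg_left h1 hε.le
    linarith
  refine ⟨K, fun k hk x a hx ha => ?_⟩
  have hcmp := h4.mono h0 hC hk
  have c1 := (hcmp x hx).2
  have c2 := (hcmp a ha).1
  have n1 := pow_nn h0 k x b
  have n2 := pow_nn h0 k a b
  calc (B ^ k) x y * (B ^ k) a b ≤ (hi * (B ^ k) x b) * (B ^ k) a b :=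
        mul_le_mul_of_nonneg_right c1 n2
    _ ≤ (((1 + ε) * lo) * (B ^ k) x b) * (B ^ k) a b := by
        refine mul_le_mul_of_nonneg_right (mul_le_mul_of_nonneg_right hhi n1) n2
    _ = (1 + ε) * ((B ^ k) x b * (lo * (B ^ k) a b)) := by ring
    _ ≤ (1 + ε) * ((B ^ k) x b * (B ^ k) a y) := by
        refine mul_le_mul_of_nonneg_left (mul_le_mul_of_nonneg_left c2 n1) (by linarith)

end H111

open H111 in
/-- J5: even powers of a symmetric nonnegative matrix are nearly of rank one on the classes of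
`x ~ y iff some even power is positive at (x, y)` -/
theorem near_block {X : Type} [Fintype X] [DecidableEq X] (A : Matrix X X ℝ)
    (hs : ∀ x y, A x y = A y x) (h0 : ∀ x y, 0 ≤ A x y)
    {ε : ℝ} (hε : 0 < ε) :
    ∃ k0 : ℕ, ∀ k ≥ k0, ∀ x y, (∃ j : ℕ, 0 < (A ^ (2 * j)) x y) →
      (A ^ (2 * k)) x y * (∑ a, ∑ b, (open scoped Classical in
        if (∃ j : ℕ, 0 < (A ^ (2 * j)) x a) ∧ (∃ j : ℕ, 0 < (A ^ (2 * j)) x b)
        then (A ^ (2 * k)) a b else 0)) ≤
      (1 + ε) * ((∑ b, (A ^ (2 * k)) x b) * ∑ b, (A ^ (2 * k)) y b) := by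
  classical
  set R : X → X → Prop := fun x y => ∃ j : ℕ, 0 < (A ^ (2 * j)) x y with hR
  have hsym : ∀ {x y}, R x y → R y x := fun ⟨j, hj⟩ => ⟨j, by rw [pow_sym hs]; exact hj⟩
  have htr : ∀ {x y z}, R x y → R y z → R x z := by
    rintro x y z ⟨j, hj⟩ ⟨i, hi⟩
    refine ⟨j + i, lt_of_lt_of_le (mul_pos hj hi) ?_⟩
    rw [mul_add]
    exact pow_ge_mul h0 (2 * j) (2 * i) x y z
  have hrefl : ∀ x, R x x := fun x => ⟨0, by simp⟩
  have hB0 : ∀ x y, 0 ≤ (A ^ 2) x y := fun x y => pow_nn h0 2 x y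
  -- everything for one pair of points
  suffices hmain : ∀ x y, R x y → ∃ K : ℕ, ∀ k ≥ K, ∀ a b, R x a → R x b →
      (A ^ (2 * k)) x y * (A ^ (2 * k)) a b ≤
        (1 + ε) * ((A ^ (2 * k)) x b * (A ^ (2 * k)) a y) by
    have hch : ∀ q : X × X, ∃ K : ℕ, ∀ k ≥ K, R q.1 q.2 → ∀ a b, R q.1 a → R q.1 b →
        (A ^ (2 * k)) q.1 q.2 * (A ^ (2 * k)) a b ≤
          (1 + ε) * ((A ^ (2 * k)) q.1 b * (A ^ (2 * k)) a q.2) := by
      intro q
      by_cases hq : R q.1 q.2
      · obtain ⟨K, hK⟩ := hmain q.1 q.2 hq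
        exact ⟨K, fun k hk _ => hK k hk⟩
      · exact ⟨0, fun k _ h => absurd h hq⟩
    choose K hK using hch
    refine ⟨univ.sup K, fun k hk x y hxy => ?_⟩
    have hkq : K (x, y) ≤ k := (le_sup (f := K) (mem_univ (x, y))).trans hk
    have h1 := hK (x, y) k hkq hxy
    simp only at h1
    have hn := pow_nn h0 (2 * k)
    have h2 : (A ^ (2 * k)) x y * (∑ a, ∑ b,
        if R x a ∧ R x b then (A ^ (2 * k)) a b else 0) ≤
        ∑ a, ∑ b, (1 + ε) * ((A ^ (2 * k)) x b * (A ^ (2 * k)) a y) := by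
      rw [mul_sum]
      refine sum_le_sum fun a _ => ?_
      rw [mul_sum]
      refine sum_le_sum fun b _ => ?_
      split_ifs with hab
      · exact h1 a b hab.1 hab.2
      · rw [mul_zero]
        exact mul_nonneg (by linarith) (mul_nonneg (hn x b) (hn a y))
    have h3 : ∑ a, ∑ b, (1 + ε) * ((A ^ (2 * k)) x b * (A ^ (2 * k)) a y) =
        (1 + ε) * ((∑ b, (A ^ (2 * k)) x b) * ∑ b, (A ^ (2 * k)) y b) := by
      rw [sum_mul_sum, mul_sum, sum_comm]
      refine sum_congr rfl fun b _ => ?_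
      rw [mul_sum]
      refine sum_congr rfl fun a _ => ?_
      rw [pow_sym hs (2 * k) y a]
    rw [← h3]
    convert h2 using 2
  intro x y hxy
  by_cases hrow : ∀ z, A x z = 0
  · -- a zero row
    refine ⟨1, fun k hk a b _ _ => ?_⟩
    have hz : ∀ w, (A ^ (2 * k)) x w = 0 := by
      intro w
      obtain ⟨l, hl⟩ : ∃ l, 2 * k = l + 1 := ⟨2 * k - 1, by omega⟩
      rw [hl, pow_succ', Matrix.mul_apply]
      exact sum_eq_zero fun z _ => by rw [hrow z, zero_mul]
    rw [hz, hz]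
    simp
  · -- all rows of the class are nonzero
    have hrows : ∀ a, R x a → 0 < (A ^ 2) a a := by
      intro a ha
      have h1 : ∃ z, A a z ≠ 0 := by
        by_contra hcon'
        have hcon : ∀ z, A a z = 0 := fun z => by
          by_contra hz
          exact hcon' ⟨z, hz⟩
        obtain ⟨j, hj⟩ := hsym ha
        rcases Nat.eq_zero_or_pos j with hj0 | hj0
        · rw [hj0, mul_zero, pow_zero, Matrix.one_apply] at hj
          split_ifs at hj with hax
          · subst hax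
            exact hrow hcon
          · exact absurd hj (lt_irrefl _)
        · obtain ⟨l, hl⟩ : ∃ l, 2 * j = l + 1 := ⟨2 * j - 1, by omega⟩
          rw [hl, pow_succ', Matrix.mul_apply] at hj
          rw [sum_eq_zero fun z _ => by rw [hcon z, zero_mul]] at hj
          exact absurd hj (lt_irrefl _)
      obtain ⟨z, hz⟩ := h1
      rw [pow_two, Matrix.mul_apply]
      refine lt_of_lt_of_le ?_ (single_le_sum (f := fun z => A a z * A z a)
        (fun w _ => mul_nonneg (h0 a w) (h0 w a)) (mem_univ z))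
      rw [hs z a]
      exact mul_self_pos.2 hz
    have hpos : ∀ a b, R x a → R x b → ∃ K : ℕ, ∀ k ≥ K, 0 < ((A ^ 2) ^ k) a b := by
      intro a b ha hb
      obtain ⟨j, hj⟩ := htr (hsym ha) hb
      refine ⟨j, fun k hk => ?_⟩
      induction k, hk using Nat.le_induction with
      | base => rw [← pow_mul]; exact hj
      | succ k _ ih =>
        refine lt_of_lt_of_le (mul_pos (hrows a ha) ih) ?_
        have := pow_ge_mul hB0 1 k a a b
        rwa [pow_one, add_comm 1 k] at this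
    obtain ⟨N, hN⟩ : ∃ N : ℕ, ∀ a b, R x a → R x b → 0 < ((A ^ 2) ^ N) a b := by
      have hch : ∀ q : X × X, ∃ K : ℕ, ∀ k ≥ K, R x q.1 → R x q.2 →
          0 < ((A ^ 2) ^ k) q.1 q.2 := by
        intro q
        by_cases hq : R x q.1 ∧ R x q.2
        · obtain ⟨K, hK⟩ := hpos q.1 q.2 hq.1 hq.2
          exact ⟨K, fun k hk _ _ => hK k hk⟩
        · exact ⟨0, fun k _ h1 h2 => absurd ⟨h1, h2⟩ hq⟩
      choose K hK using hch
      exact ⟨univ.sup K, fun a b ha hb =>
        hK (a, b) _ (le_sup (f := K) (mem_univ (a, b))) ha hb⟩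
    have hC : ∀ a z, R x a → ¬ R x z → (A ^ 2) a z = 0 := by
      intro a z ha hz
      by_contra hne
      have : 0 < (A ^ 2) a z := lt_of_le_of_ne (hB0 a z) (Ne.symm hne)
      exact hz (htr ha ⟨1, by simpa using this⟩)
    have hlim : ∀ b : X, ∃ K : ℕ, ∀ k ≥ K, R x b → ∀ a, R x a →
        ((A ^ 2) ^ k) x y * ((A ^ 2) ^ k) a b ≤
          (1 + ε) * (((A ^ 2) ^ k) x b * ((A ^ 2) ^ k) a y) := by
      intro b
      by_cases hb : R x b
      · obtain ⟨K, hK⟩ := cmp_limit hB0 hC hN hxy hb hε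
        exact ⟨K, fun k hk _ a ha => hK k hk x a (hrefl x) ha⟩
      · exact ⟨0, fun k _ h => absurd h hb⟩
    choose K hK using hlim
    refine ⟨univ.sup K, fun k hk a b ha hb => ?_⟩
    have := hK b k ((le_sup (f := K) (mem_univ b)).trans hk) hb a ha
    simpa only [← pow_mul] using this

end Vale.Agent.P050.Opt
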