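import Vale.Agent.P050.O.H322.Kpow
import Vale.Agent.P050.O.H111.NearBlock

set_option linter.all false

/-!
Long subdivisions: the mean of the powers of a symmetric nonnegative kernel (Blakley, Roy).
-/

open Finset

namespace Vale.Agent.P050.Opt

open Vale.Agent.P050 Vale.Agent.P050.Dense

namespace H111

/-- Jensen for the logarithm; the values may vanish where the weights vanish -/
lemma jensen_log {ι : Type} [Fintype ι] (q a : ι → ℝ) (hq : ∀ i, 0 ≤ q i) (hq1 : ∑ i, q i = 1)
    (ha : ∀ i, 0 < q i → 0 < a i) : ∑ i, q i * Real.log (a i) ≤ Real.log (∑ i, q i * a i) := by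
  have hnn : ∀ i, 0 ≤ q i * a i := fun i => by
    rcases (hq i).eq_or_lt with h | h
    · rw [← h, zero_mul]
    · exact mul_nonneg (hq i) (ha i h).le
  have hS : 0 < ∑ i, q i * a i := by
    obtain ⟨i, hi⟩ : ∃ i, 0 < q i := by
      by_contra hcon
      push Not at hcon
      have : ∑ i, q i = 0 := sum_eq_zero fun i _ => le_antisymm (hcon i) (hq i)
      rw [hq1] at this
      exact one_ne_zero this
    exact lt_of_lt_of_le (mul_pos hi (ha i hi)) (single_le_sum (f := fun i => q i * a i)
      (fun i _ => hnn i) (mem_univ i))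
  set S := ∑ i, q i * a i with hSdef
  have h1 : ∀ i, q i * Real.log (a i) ≤ q i * Real.log S + (q i * a i / S - q i) := by
    intro i
    rcases (hq i).eq_or_lt with h | h
    · rw [← h]; simp
    · have h2 := Real.log_le_sub_one_of_pos (div_pos (ha i h) hS)
      rw [Real.log_div (ha i h).ne' hS.ne'] at h2
      have h3 := mul_le_mul_of_nonneg_left h2 (hq i)
      have h4 : q i * (a i / S - 1) = q i * a i / S - q i := by ring
      linarith
  calc ∑ i, q i * Real.log (a i) ≤ ∑ i, (q i * Real.log S + (q i * a i / S - q i)) :=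
        sum_le_sum fun i _ => h1 i
    _ = Real.log S := by
        rw [sum_add_distrib, ← sum_mul, hq1, sum_sub_distrib, ← sum_div, ← hSdef, hq1,
          div_self hS.ne']
        ring

variable {X : Type} [Fintype X] [DecidableEq X]

/-- the number of weighted walks of length `j` from `x` -/
def wk (A : Matrix X X ℝ) (j : ℕ) (x : X) : ℝ := ∑ y, (A ^ j) x y

lemma wk_zero (A : Matrix X X ℝ) (x : X) : wk A 0 x = 1 := by
  unfold wk
  rw [pow_zero]
  simp [Matrix.one_apply]

lemma wk_succ (A : Matrix X X ℝ) (j : ℕ) (x : X) : wk A (j + 1) x = ∑ y, A x y * wk A j y := by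
  unfold wk
  simp_rw [pow_succ', Matrix.mul_apply]
  rw [sum_comm]
  exact sum_congr rfl fun y _ => (mul_sum _ _ _).symm

lemma wk_one (A : Matrix X X ℝ) (x : X) : wk A 1 x = ∑ y, A x y := by
  unfold wk
  rw [pow_one]

lemma wk_pos {A : Matrix X X ℝ} (hs : ∀ x y, A x y = A y x) (h0 : ∀ x y, 0 ≤ A x y) (j : ℕ)
    (x : X) (hx : 0 < ∑ y, A x y) : 0 < wk A j x := by
  induction j generalizing x with
  | zero => rw [wk_zero]; exact one_pos
  | succ j ih =>
    rw [wk_succ]
    obtain ⟨y, hy⟩ : ∃ y, 0 < A x y := by
      by_contra hcon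
      push Not at hcon
      exact absurd hx (not_lt.2 (sum_nonpos fun y _ => hcon y))
    have hy' : 0 < ∑ z, A y z := lt_of_lt_of_le (by rw [hs y x]; exact hy)
      (single_le_sum (f := fun z => A y z) (fun z _ => h0 y z) (mem_univ x))
    refine lt_of_lt_of_le (mul_pos hy (ih y hy')) (single_le_sum (f := fun y => A x y * wk A j y)
      (fun z _ => mul_nonneg (h0 x z) ?_) (mem_univ y))
    exact sum_nonneg fun w _ => pow_nn h0 j z w

/-- the inequality of Blakley and Roy -/
theorem blakley_roy [Nonempty X] {A : Matrix X X ℝ} (hs : ∀ x y, A x y = A y x)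
    (h0 : ∀ x y, 0 ≤ A x y) (m : ℕ) :
    (∑ x, ∑ y, A x y) ^ (m + 1) ≤ (Fintype.card X : ℝ) ^ m * ∑ x, ∑ y, (A ^ (m + 1)) x y := by
  have hn : (0:ℝ) < Fintype.card X := by exact_mod_cast Fintype.card_pos
  set d : X → ℝ := fun x => ∑ y, A x y with hd
  set w : ℝ := ∑ x, ∑ y, A x y with hw
  have hd0 : ∀ x, 0 ≤ d x := fun x => sum_nonneg fun y _ => h0 x y
  have hw0 : 0 ≤ w := sum_nonneg fun x _ => hd0 x
  have hR0 : 0 ≤ ∑ x, ∑ y, (A ^ (m + 1)) x y :=
    sum_nonneg fun x _ => sum_nonneg fun y _ => pow_nn h0 _ x y
  rcases hw0.eq_or_lt with hz | hwp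
  · rw [← hz, zero_pow (Nat.succ_ne_zero m)]
    positivity
  -- the stationary law
  set p : X → ℝ := fun x => d x / w with hp
  have hp0 : ∀ x, 0 ≤ p x := fun x => div_nonneg (hd0 x) hw0
  have hp1 : ∑ x, p x = 1 := by
    rw [hp]
    simp only
    rw [← sum_div]
    exact div_self hwp.ne'
  have hpd : ∀ x, 0 < p x → 0 < d x := fun x hx => by
    by_contra hcon
    have : d x = 0 := le_antisymm (not_lt.1 hcon) (hd0 x)
    rw [hp] at hx
    simp only [this, zero_div, lt_irrefl] at hx
  -- the logarithms
  have hL : ∀ j : ℕ, (j : ℝ) * ∑ x, p x * Real.log (d x) ≤ ∑ x, p x * Real.log (wk A j x) := by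
    intro j
    induction j with
    | zero =>
      simp [wk_zero]
    | succ j ih =>
      have h1 : ∀ x, p x * (Real.log (d x) + ∑ y, A x y / d x * Real.log (wk A j y)) ≤
          p x * Real.log (wk A (j + 1) x) := by
        intro x
        rcases (hp0 x).eq_or_lt with h | h
        · rw [← h]; simp
        · have hdx := hpd x h
          refine mul_le_mul_of_nonneg_left ?_ h.le
          have hA1 : ∑ y, A x y / d x = 1 := by
            rw [← sum_div]
            exact div_self hdx.ne'
          have hpos : ∀ y, 0 < A x y / d x → 0 < wk A j y := by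
            intro y hy
            have hAxy : 0 < A x y := by
              by_contra hcon
              have : A x y = 0 := le_antisymm (not_lt.1 hcon) (h0 x y)
              rw [this, zero_div] at hy
              exact lt_irrefl _ hy
            exact wk_pos hs h0 j y (lt_of_lt_of_le (by rw [hs y x]; exact hAxy)
              (single_le_sum (f := fun z => A y z) (fun z _ => h0 y z) (mem_univ x)))
          have hJ := jensen_log (fun y => A x y / d x) (wk A j)
            (fun y => div_nonneg (h0 x y) (hd0 x)) hA1 hpos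
          have hsum : ∑ y, A x y / d x * wk A j y = wk A (j + 1) x / d x := by
            rw [wk_succ, sum_div]
            exact sum_congr rfl fun y _ => by ring
          rw [hsum, Real.log_div (wk_pos hs h0 _ x hdx).ne' hdx.ne'] at hJ
          linarith
      have h2 : ∑ x, p x * (Real.log (d x) + ∑ y, A x y / d x * Real.log (wk A j y)) =
          ∑ x, p x * Real.log (d x) + ∑ y, p y * Real.log (wk A j y) := by
        have h3 : ∀ x, p x * (Real.log (d x) + ∑ y, A x y / d x * Real.log (wk A j y)) =
            p x * Real.log (d x) + ∑ y, A x y / w * Real.log (wk A j y) := by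
          intro x
          rcases (hd0 x).eq_or_lt with h | h
          · have hA : ∀ y, A x y = 0 := fun y =>
              (sum_eq_zero_iff_of_nonneg fun y _ => h0 x y).1 h.symm y (mem_univ y)
            have hpx : p x = 0 := by rw [hp]; simp only [← h, zero_div]
            rw [hpx]
            simp [hA]
          · rw [mul_add, mul_sum]
            congr 1
            refine sum_congr rfl fun y _ => ?_
            rw [hp]
            have := h.ne'
            field_simp
        simp_rw [h3]
        rw [sum_add_distrib]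
        congr 1
        rw [sum_comm]
        refine sum_congr rfl fun y _ => ?_
        rw [← sum_mul, ← sum_div]
        congr 2
        exact sum_congr rfl fun x _ => hs x y
      calc ((j + 1 : ℕ) : ℝ) * ∑ x, p x * Real.log (d x)
          = ∑ x, p x * Real.log (d x) + (j : ℝ) * ∑ x, p x * Real.log (d x) := by
            push_cast
            ring
        _ ≤ ∑ x, p x * Real.log (d x) + ∑ y, p y * Real.log (wk A j y) := by linarith
        _ = _ := h2.symm
        _ ≤ _ := sum_le_sum fun x _ => h1 x
  -- the entropy of the stationary law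
  have hL1 : Real.log (w / Fintype.card X) ≤ ∑ x, p x * Real.log (d x) := by
    have h1 : ∀ x, p x * Real.log (w / Fintype.card X) + (p x - (Fintype.card X : ℝ)⁻¹) ≤
        p x * Real.log (d x) := by
      intro x
      rcases (hp0 x).eq_or_lt with h | h
      · rw [← h]
        simp only [zero_mul, zero_sub, zero_add]
        have : 0 < (Fintype.card X : ℝ)⁻¹ := inv_pos.2 hn
        linarith
      · have hdx := hpd x h
        have hq : 0 < w / Fintype.card X / d x := by positivity
        have h2 := Real.log_le_sub_one_of_pos hq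
        rw [Real.log_div (by positivity) hdx.ne'] at h2
        have h3 := mul_le_mul_of_nonneg_left h2 h.le
        have h4 : p x * (w / Fintype.card X / d x - 1) = (Fintype.card X : ℝ)⁻¹ - p x := by
          rw [hp]
          simp only
          have := hdx.ne'
          have := hwp.ne'
          have := hn.ne'
          field_simp
        linarith
    have h5 := sum_le_sum fun x (_ : x ∈ univ) => h1 x
    rw [sum_add_distrib, ← sum_mul, hp1, sum_sub_distrib, hp1, sum_const, card_univ,
      nsmul_eq_mul, mul_inv_cancel₀ hn.ne'] at h5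
    linarith
  -- conclusion
  have hsumm : ∑ x, ∑ y, (A ^ (m + 1)) x y = w * ∑ x, p x * wk A m x := by
    have h1 : ∑ x, ∑ y, (A ^ (m + 1)) x y = ∑ x, ∑ y, A x y * wk A m y :=
      sum_congr rfl fun x _ => wk_succ A m x
    rw [h1, sum_comm, mul_sum]
    refine sum_congr rfl fun y _ => ?_
    rw [← sum_mul, hp]
    simp only
    have h2 : ∑ x, A x y = d y := sum_congr rfl fun x _ => hs x y
    rw [h2]
    have := hwp.ne'
    field_simp
  have hJ := jensen_log p (wk A m) hp0 hp1 fun x hx => wk_pos hs h0 m x (hpd x hx)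
  have hT : 0 < ∑ x, p x * wk A m x := by
    obtain ⟨x, hx⟩ : ∃ x, 0 < p x := by
      by_contra hcon
      push Not at hcon
      have : ∑ x, p x = 0 := sum_eq_zero fun i _ => le_antisymm (hcon i) (hp0 i)
      rw [hp1] at this
      exact one_ne_zero this
    exact lt_of_lt_of_le (mul_pos hx (wk_pos hs h0 m x (hpd x hx)))
      (single_le_sum (f := fun x => p x * wk A m x)
        (fun z _ => mul_nonneg (hp0 z) (sum_nonneg fun w _ => pow_nn h0 m z w)) (mem_univ x))
  have hfin : (w / Fintype.card X) ^ m ≤ ∑ x, p x * wk A m x := by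
    rw [← Real.log_le_log_iff (by positivity) hT, Real.log_pow]
    calc (m : ℝ) * Real.log (w / Fintype.card X) ≤ m * ∑ x, p x * Real.log (d x) :=
          mul_le_mul_of_nonneg_left hL1 (Nat.cast_nonneg m)
      _ ≤ _ := hL m
      _ ≤ _ := hJ
  rw [hsumm]
  calc w ^ (m + 1) = (Fintype.card X : ℝ) ^ m * (w * (w / Fintype.card X) ^ m) := by
        rw [div_pow, pow_succ]
        field_simp
    _ ≤ _ := mul_le_mul_of_nonneg_left (mul_le_mul_of_nonneg_left hfin hw0) (by positivity)

/-- (c): the mean of the powers -/
theorem pden_kpow [Nonempty X] {W : X → X → ℝ} (hs : ∀ x y, W x y = W y x)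
    (h0 : ∀ x y, 0 ≤ W x y) {k : ℕ} (hk : 1 ≤ k) : pden W ^ k ≤ pden (kpow W k) := by
  have hn : (0:ℝ) < Fintype.card X := by exact_mod_cast Fintype.card_pos
  obtain ⟨m, rfl⟩ : ∃ m, k = m + 1 := ⟨k - 1, by omega⟩
  have h := blakley_roy (A := Matrix.of W) hs h0 m
  unfold pden kpow
  rw [Nat.add_sub_cancel]
  simp_rw [← sum_div]
  rw [div_pow, div_div, ← pow_mul, div_le_div_iff₀ (by positivity) (by positivity)]
  calc (∑ x, ∑ y, W x y) ^ (m + 1) * ((Fintype.card X : ℝ) ^ m * (Fintype.card X : ℝ) ^ 2)
      ≤ ((Fintype.card X : ℝ) ^ m * ∑ x, ∑ y, (Matrix.of W ^ (m + 1)) x y) *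
        ((Fintype.card X : ℝ) ^ m * (Fintype.card X : ℝ) ^ 2) :=
        mul_le_mul_of_nonneg_right h (by positivity)
    _ = _ := by ring

end H111

end Vale.Agent.P050.Opt
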