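import Vale.Agent.P050.O.H300.EntDefs
import Vale.Agent.P050.O.H602.Box
import Vale.Agent.P050.O.H612.PinRatio
import Vale.Agent.P050.O.H998.ExK
import Vale.Agent.P050.R2.H111.Reg

set_option linter.all false

/-!
Dense targets, graphs built by gluing: the graphs of bounded degree.
-/

open MeasureTheory Finset Function

namespace Vale.Agent.P050.Opt

open Vale.Agent.P050 Vale.Agent.P050.Dense

namespace H111

section

variable {V : Type*} [Fintype V] [DecidableEq V] {Ω : Type*} [Fintype Ω] [DecidableEq Ω]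
  [MeasurableSpace Ω] [MeasurableSingletonClass Ω]

theorem mH_eq (H : SimpleGraph V) [DecidableRel H.Adj] (w : Ω → ℝ) (U : Sym2 Ω → ℝ) (z : V → Ω) :
    mH H w U z = (∏ v, w (z v)) * ∏ e ∈ H.edgeFinset, (1 + U (e.map z)) := by
  classical
  unfold mH
  have h : ∀ i j : Fintype H.edgeSet, (@SimpleGraph.edgeFinset V H i) =
      (@SimpleGraph.edgeFinset V H j) := by
    intro i j
    ext e
    exact Iff.trans (@SimpleGraph.mem_edgeFinset _ H e i)
      (Iff.symm (@SimpleGraph.mem_edgeFinset _ H e j))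
  rw [h]

theorem Zk_sum (H : SimpleGraph V) [DecidableRel H.Adj] (μ : Measure Ω) [IsProbabilityMeasure μ]
    (U : Sym2 Ω → ℝ) (k : V → Ω → ℝ) :
    Zk H μ U k = ∑ z : V → Ω, mH H (fun s => μ.real {s}) U z * ∏ v, k v (z v) := by
  unfold Zk
  rw [R2.H111.integral_piM (fun x => rfl)]
  refine sum_congr rfl fun z _ => ?_
  rw [mH_eq]
  ring

theorem mH_nonneg (H : SimpleGraph V) (μ : Measure Ω) [IsProbabilityMeasure μ] {U : Sym2 Ω → ℝ}
    {κ η : ℝ} (hU : Ker μ U κ η) (z : V → Ω) : 0 ≤ mH H (fun s => μ.real {s}) U z := by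
  unfold mH
  refine mul_nonneg (prod_nonneg fun v _ => measureReal_nonneg) (prod_nonneg fun e _ => ?_)
  have := (abs_le.1 (hU.good.bdd (e.map z))).1
  linarith

/-- from the weights whose Gibbs law has the right marginals -/
theorem ent_of_k (H : SimpleGraph V) [DecidableRel H.Adj] (μ : Measure Ω)
    [IsProbabilityMeasure μ] {U : Sym2 Ω → ℝ} {κ η : ℝ} (hU : Ker μ U κ η) {k : V → Ω → ℝ}
    (hk : Box k) (hm : ∀ v s, k v s * Pk H μ U k v s = Zk H μ U k)
    (hZ : 0 < Zk H μ U k) (hl : ∑ v, ∫ s, Real.log (k v s) ∂μ ≤ Real.log (Zk H μ U k)) :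
    Ent H (fun s => μ.real {s}) U := by
  have hkp : ∀ v s, 0 < k v s := fun v s => lt_of_lt_of_le one_pos (hk v s).1
  have hPp : ∀ z : V → Ω, 0 < ∏ v, k v (z v) := fun z => prod_pos fun v _ => hkp v _
  have hmn := mH_nonneg (V := V) H μ hU
  have hmarg : ∀ (v : V) (s : Ω), ∑ z ∈ univ.filter (fun z : V → Ω => z v = s),
      mH H (fun s => μ.real {s}) U z * ∏ v, k v (z v) = μ.real {s} * Zk H μ U k := by
    intro v s
    set k' : V → Ω → ℝ := update k v (fun t => if t = s then k v t else 0) with hk'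
    have e1 : Zk H μ U k' = ∑ z ∈ univ.filter (fun z : V → Ω => z v = s),
        mH H (fun s => μ.real {s}) U z * ∏ v, k v (z v) := by
      rw [Zk_sum, sum_filter]
      refine sum_congr rfl fun z _ => ?_
      by_cases hz : z v = s
      · rw [if_pos hz]
        congr 1
        refine prod_congr rfl fun w _ => ?_
        by_cases hw : w = v
        · subst hw
          rw [hk', update_self, if_pos hz]
        · rw [hk', update_of_ne hw]
      · rw [if_neg hz, prod_eq_zero (mem_univ v) (by rw [hk', update_self, if_neg hz]), mul_zero]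
    rw [← e1, Zk_eq_int H μ hU k' v, R2.H111.integral_one (fun x => rfl)]
    have e2 : ∀ t, Pk H μ U k' v t = Pk H μ U k v t := by
      intro t
      unfold Pk
      congr 1
      ext z
      congr 1
      refine prod_congr rfl fun w hw => ?_
      rw [hk', update_of_ne (ne_of_mem_erase hw)]
    rw [sum_eq_single s]
    · rw [hk', update_self, if_pos rfl, ← hk', e2, hm v s]
    · intro t _ hts
      rw [hk', update_self, if_neg hts]
      ring
    · intro h
      exact absurd (mem_univ s) h
  refine ⟨fun z => mH H (fun s => μ.real {s}) U z * (∏ v, k v (z v)) / Zk H μ U k,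
    fun z => div_nonneg (mul_nonneg (hmn z) (hPp z).le) hZ.le, ?_, ?_, ?_, ?_⟩
  · rw [← sum_div, ← Zk_sum, div_self hZ.ne']
  · intro v s
    rw [← sum_div, hmarg v s, mul_div_assoc, div_self hZ.ne', mul_one]
  · intro z hz
    dsimp only
    rw [hz, zero_mul, zero_div]
  · have hpt : ∀ z : V → Ω, mH H (fun s => μ.real {s}) U z * (∏ v, k v (z v)) / Zk H μ U k *
        Real.log (mH H (fun s => μ.real {s}) U z * (∏ v, k v (z v)) / Zk H μ U k /
          mH H (fun s => μ.real {s}) U z) =
        ∑ v, (mH H (fun s => μ.real {s}) U z * (∏ v, k v (z v)) / Zk H μ U k) *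
          Real.log (k v (z v)) -
        (mH H (fun s => μ.real {s}) U z * (∏ v, k v (z v)) / Zk H μ U k) *
          Real.log (Zk H μ U k) := by
      intro z
      by_cases h0 : mH H (fun s => μ.real {s}) U z = 0
      · rw [h0]; simp
      · have e3 : mH H (fun s => μ.real {s}) U z * (∏ v, k v (z v)) / Zk H μ U k /
            mH H (fun s => μ.real {s}) U z = (∏ v, k v (z v)) / Zk H μ U k := by
          field_simp
        rw [e3, Real.log_div (hPp z).ne' hZ.ne', Real.log_prod (fun v _ => (hkp v _).ne'),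
          mul_sub, mul_sum]
    rw [sum_congr rfl fun z _ => hpt z, sum_sub_distrib, ← sum_mul, ← sum_div, ← Zk_sum,
      div_self hZ.ne', one_mul, sum_comm]
    have e4 : ∀ v : V, ∑ z : V → Ω, (mH H (fun s => μ.real {s}) U z * (∏ v, k v (z v)) /
        Zk H μ U k) * Real.log (k v (z v)) = ∫ s, Real.log (k v s) ∂μ := by
      intro v
      rw [R2.H111.integral_one (fun x => rfl), ← sum_fiberwise univ (fun z : V → Ω => z v)]
      refine sum_congr rfl fun s _ => ?_
      have e5 : ∀ z ∈ univ.filter (fun z : V → Ω => z v = s),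
          (mH H (fun s => μ.real {s}) U z * (∏ v, k v (z v)) / Zk H μ U k) *
            Real.log (k v (z v)) =
          (mH H (fun s => μ.real {s}) U z * (∏ v, k v (z v)) / Zk H μ U k) *
            Real.log (k v s) := by
        intro z hz
        rw [(mem_filter.1 hz).2]
      rw [sum_congr rfl e5, ← sum_mul, ← sum_div, hmarg v s, mul_div_assoc, div_self hZ.ne',
        mul_one]
    rw [sum_congr rfl fun v _ => e4 v]
    linarith

end

end H111

section

variable {V : Type} [Fintype V] [DecidableEq V] {Ω : Type} [Fintype Ω] [DecidableEq Ω]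

/-- E5: maximum degree `D` -/
theorem H111.ent_base [MeasurableSpace Ω] [MeasurableSingletonClass Ω] (H : SimpleGraph V)
    (hH : H.IsBipartite) {D : ℕ} (hD : ∀ v, (H.neighborSet v).ncard ≤ D) (μ : Measure Ω)
    [IsProbabilityMeasure μ] (hμ : ∀ s, 0 < μ.real {s}) {U : Sym2 Ω → ℝ} {κ η : ℝ}
    (hU : Ker μ U κ η) (hη : (1 + η) ^ D ≤ 2) (hκ : 10 ^ 12 * D * κ ≤ 1) :
    Ent H (fun s => μ.real {s}) U := by
  classical
  have hD' : ∀ v, H.degree v ≤ D := by
    intro v
    have := hD v
    rw [Set.ncard_eq_toFinset_card'] at this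
    rwa [← SimpleGraph.card_neighborFinset_eq_degree]
  obtain ⟨k, hk, hm⟩ := exists_k H μ hU fun k hk v s t => pin_ratio H μ hD' hU hη hκ hk v s t
  obtain ⟨hZ, hl⟩ := box_le H μ hH hD' hU hη hκ hk
  refine H111.ent_of_k H μ hU hk (fun v s => hm v s ?_) hZ hl
  intro h
  have := hμ s
  rw [Measure.real, h, ENNReal.toReal_zero] at this
  exact lt_irrefl _ this

end

end Vale.Agent.P050.Opt
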