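import Vale.Agent.P050.O.H300.EntDefs

set_option linter.all false

/-!
Dense targets, graphs built by gluing: two graphs with at most one common vertex.
-/

open MeasureTheory Finset Function

namespace Vale.Agent.P050.Opt

open Vale.Agent.P050 Vale.Agent.P050.Dense

namespace H111

section glue

variable {V V₁ V₂ : Type*} [Fintype V] [DecidableEq V] [Fintype V₁] [DecidableEq V₁]
  [Fintype V₂] [DecidableEq V₂] {Ω : Type*} [Fintype Ω] [DecidableEq Ω]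

/-- configurations are compatible pairs of configurations -/
theorem sum_two (f₁ : V₁ ↪ V) (f₂ : V₂ ↪ V) (hc : ∀ x, (∃ u, f₁ u = x) ∨ ∃ v, f₂ v = x)
    (Φ : (V₁ → Ω) → (V₂ → Ω) → ℝ) :
    ∑ z : V → Ω, Φ (z ∘ f₁) (z ∘ f₂) =
      ∑ z₁ : V₁ → Ω, ∑ z₂ ∈ univ.filter (fun z₂ : V₂ → Ω => ∀ u v, f₁ u = f₂ v → z₁ u = z₂ v),
        Φ z₁ z₂ := by
  rw [Finset.sum_sigma']
  refine Finset.sum_bij (fun (z : V → Ω) _ => (⟨z ∘ f₁, z ∘ f₂⟩ :
    (_ : V₁ → Ω) × (V₂ → Ω))) ?_ ?_ ?_ ?_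
  · intro z _
    rw [mem_sigma, mem_filter]
    refine ⟨mem_univ _, mem_univ _, fun u v huv => ?_⟩
    show z (f₁ u) = z (f₂ v)
    rw [huv]
  · intro z _ z' _ hzz
    have h1 : z ∘ f₁ = z' ∘ f₁ := congrArg Sigma.fst hzz
    have h2 : z ∘ f₂ = z' ∘ f₂ := eq_of_heq (Sigma.mk.inj_iff.1 hzz).2
    funext x
    rcases hc x with ⟨u, rfl⟩ | ⟨v, rfl⟩
    · exact congrFun h1 u
    · exact congrFun h2 v
  · rintro ⟨z₁, z₂⟩ hz
    rw [mem_sigma, mem_filter] at hz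
    have hcomp := hz.2.2
    have hex : ∀ x, ∃ a : Ω, (∀ u, f₁ u = x → z₁ u = a) ∧ (∀ v, f₂ v = x → z₂ v = a) := by
      intro x
      rcases hc x with ⟨u, rfl⟩ | ⟨v, rfl⟩
      · refine ⟨z₁ u, fun u' hu' => by rw [f₁.injective hu'], fun v hv => ?_⟩
        exact (hcomp u v hv.symm).symm
      · exact ⟨z₂ v, fun u hu => hcomp u v hu, fun v' hv' => by rw [f₂.injective hv']⟩
    choose z hzz using hex
    refine ⟨z, mem_univ _, ?_⟩
    have e1 : z ∘ f₁ = z₁ := funext fun u => ((hzz (f₁ u)).1 u rfl).symm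
    have e2 : z ∘ f₂ = z₂ := funext fun v => ((hzz (f₂ v)).2 v rfl).symm
    rw [e1, e2]
  · intro z _
    rfl

/-- the law of the first part -/
theorem sum_marg (f₁ : V₁ ↪ V) (f₂ : V₂ ↪ V)
    (h : ∀ u v u' v', f₁ u = f₂ v → f₁ u' = f₂ v' → u = u')
    (hc : ∀ x, (∃ u, f₁ u = x) ∨ ∃ v, f₂ v = x) {w : Ω → ℝ} (hw : ∀ s, 0 < w s)
    {g : (V₂ → Ω) → ℝ} (hg : ∑ z, g z = 1)
    (hm : ∀ v s, ∑ z ∈ univ.filter (fun z : V₂ → Ω => z v = s), g z = w s)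
    (F : (V₁ → Ω) → ℝ) :
    ∑ z : V → Ω, F (z ∘ f₁) * g (z ∘ f₂) / ∏ x ∈ univ.map f₁ ∩ univ.map f₂, w (z x) =
      ∑ z₁, F z₁ := by
  by_cases hov : ∃ u v, f₁ u = f₂ v
  · obtain ⟨u₀, v₀, h0⟩ := hov
    have hI : univ.map f₁ ∩ univ.map f₂ = {f₁ u₀} := by
      ext x
      simp only [mem_inter, mem_map, mem_univ, true_and, mem_singleton]
      constructor
      · rintro ⟨⟨u, rfl⟩, ⟨v, hv⟩⟩
        rw [h u v u₀ v₀ hv.symm h0]
      · rintro rfl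
        exact ⟨⟨u₀, rfl⟩, ⟨v₀, h0.symm⟩⟩
    rw [hI]
    simp only [prod_singleton]
    refine (sum_two f₁ f₂ hc fun z₁ z₂ => F z₁ * g z₂ / w (z₁ u₀)).trans ?_
    refine sum_congr rfl fun z₁ _ => ?_
    have hf : univ.filter (fun z₂ : V₂ → Ω => ∀ u v, f₁ u = f₂ v → z₁ u = z₂ v) =
        univ.filter (fun z₂ : V₂ → Ω => z₂ v₀ = z₁ u₀) := by
      refine filter_congr fun z₂ _ => ?_
      constructor
      · intro hh
        exact (hh u₀ v₀ h0).symm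
      · intro hh u v huv
        have hu := h u v u₀ v₀ huv h0
        have hv : v = v₀ := f₂.injective (by rw [← huv, ← h0, hu])
        rw [hu, hv, hh]
    rw [hf, ← sum_div, ← mul_sum, hm v₀ (z₁ u₀), mul_div_assoc, div_self (hw _).ne', mul_one]
  · push Not at hov
    have hI : univ.map f₁ ∩ univ.map f₂ = ∅ := by
      rw [eq_empty_iff_forall_notMem]
      intro x hx
      simp only [mem_inter, mem_map, mem_univ, true_and] at hx
      obtain ⟨⟨u, hu⟩, ⟨v, hv⟩⟩ := hx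
      exact hov u v (hu.trans hv.symm)
    rw [hI]
    simp only [prod_empty, div_one]
    refine (sum_two f₁ f₂ hc fun z₁ z₂ => F z₁ * g z₂).trans ?_
    refine sum_congr rfl fun z₁ _ => ?_
    have hf : univ.filter (fun z₂ : V₂ → Ω => ∀ u v, f₁ u = f₂ v → z₁ u = z₂ v) = univ :=
      filter_true_of_mem fun z₂ _ u v huv => absurd huv (hov u v)
    rw [hf, ← mul_sum, hg, mul_one]

/-- the weights of the two parts -/
theorem mH_two {G : SimpleGraph V} {H₁ : SimpleGraph V₁} {H₂ : SimpleGraph V₂} (f₁ : V₁ ↪ V)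
    (f₂ : V₂ ↪ V) (hG : G = H₁.map f₁ ⊔ H₂.map f₂)
    (h : ∀ u v u' v', f₁ u = f₂ v → f₁ u' = f₂ v' → u = u')
    (hc : ∀ x, (∃ u, f₁ u = x) ∨ ∃ v, f₂ v = x) (w : Ω → ℝ) (U : Sym2 Ω → ℝ) (z : V → Ω) :
    mH G w U z * ∏ x ∈ univ.map f₁ ∩ univ.map f₂, w (z x) =
      mH H₁ w U (z ∘ f₁) * mH H₂ w U (z ∘ f₂) := by
  classical
  unfold mH
  have hA : (univ : Finset V) = univ.map f₁ ∪ univ.map f₂ := by
    symm
    rw [eq_univ_iff_forall]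
    intro x
    rw [mem_union, mem_map, mem_map]
    rcases hc x with ⟨u, hu⟩ | ⟨v, hv⟩
    · exact Or.inl ⟨u, mem_univ _, hu⟩
    · exact Or.inr ⟨v, mem_univ _, hv⟩
  have hv : (∏ v, w (z v)) * ∏ x ∈ univ.map f₁ ∩ univ.map f₂, w (z x) =
      (∏ u, w ((z ∘ f₁) u)) * ∏ v, w ((z ∘ f₂) v) := by
    have e1 : ∏ u, w ((z ∘ f₁) u) = ∏ x ∈ univ.map f₁, w (z x) := by rw [prod_map]; rfl
    have e2 : ∏ v, w ((z ∘ f₂) v) = ∏ x ∈ univ.map f₂, w (z x) := by rw [prod_map]; rfl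
    rw [e1, e2, ← prod_union_inter (s₁ := univ.map f₁) (s₂ := univ.map f₂), ← hA]
  have hE : G.edgeFinset = H₁.edgeFinset.map f₁.sym2Map ∪ H₂.edgeFinset.map f₂.sym2Map := by
    ext e
    rw [mem_union, mem_map, mem_map, SimpleGraph.mem_edgeFinset, hG, SimpleGraph.edgeSet_sup,
      SimpleGraph.edgeSet_map, SimpleGraph.edgeSet_map]
    simp only [Set.mem_union, Set.mem_image, SimpleGraph.mem_edgeFinset]
  have hd : Disjoint (H₁.edgeFinset.map f₁.sym2Map) (H₂.edgeFinset.map f₂.sym2Map) := by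
    rw [disjoint_left]
    intro e he1 he2
    rw [mem_map] at he1 he2
    obtain ⟨e1, h1, rfl⟩ := he1
    obtain ⟨e2, h2, h3⟩ := he2
    rw [SimpleGraph.mem_edgeFinset] at h1
    induction e1 with
    | h a b =>
      induction e2 with
      | h c d =>
        rw [SimpleGraph.mem_edgeSet] at h1
        have h4 : s(f₂ c, f₂ d) = s(f₁ a, f₁ b) := h3
        rw [Sym2.eq_iff] at h4
        rcases h4 with ⟨h5, h6⟩ | ⟨h5, h6⟩
        · exact h1.ne (h a c b d h5.symm h6.symm)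
        · exact h1.ne (h a d b c h6.symm h5.symm)
  have he : ∏ e ∈ G.edgeFinset, (1 + U (e.map z)) =
      (∏ e ∈ H₁.edgeFinset, (1 + U (e.map (z ∘ f₁)))) *
        ∏ e ∈ H₂.edgeFinset, (1 + U (e.map (z ∘ f₂))) := by
    rw [hE, prod_union hd, prod_map, prod_map]
    congr 1
    · refine prod_congr rfl fun e _ => ?_
      rw [Sym2.map_comp]
      rfl
    · refine prod_congr rfl fun e _ => ?_
      rw [Sym2.map_comp]
      rfl
  rw [he]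
  calc _ = ((∏ v, w (z v)) * ∏ x ∈ univ.map f₁ ∩ univ.map f₂, w (z x)) *
        ((∏ e ∈ H₁.edgeFinset, (1 + U (e.map (z ∘ f₁)))) *
        ∏ e ∈ H₂.edgeFinset, (1 + U (e.map (z ∘ f₂)))) := by ring
    _ = _ := by rw [hv]; ring

end glue

end H111

section

variable {V : Type} [Fintype V] [DecidableEq V] {Ω : Type} [Fintype Ω] [DecidableEq Ω]

open H111 in
/-- E2: vertex gluing -/
theorem ent_glue {V₁ V₂ : Type} [Fintype V₁] [DecidableEq V₁] [Fintype V₂] [DecidableEq V₂] (H₁ : SimpleGraph V₁)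
    (H₂ : SimpleGraph V₂) (f₁ : V₁ ↪ V) (f₂ : V₂ ↪ V)
    (h : ∀ u v u' v', f₁ u = f₂ v → f₁ u' = f₂ v' → u = u')
    (hc : ∀ x, (∃ u, f₁ u = x) ∨ ∃ v, f₂ v = x) {w : Ω → ℝ} {U : Sym2 Ω → ℝ} (hw : Wt w U)
    (h1 : Ent H₁ w U) (h2 : Ent H₂ w U) : Ent (H₁.map f₁ ⊔ H₂.map f₂) w U := by
  obtain ⟨g₁, p1, s1, m1, z1, k1⟩ := h1
  obtain ⟨g₂, p2, s2, m2, z2, k2⟩ := h2
  have h' : ∀ v u v' u', f₂ v = f₁ u → f₂ v' = f₁ u' → v = v' := by
    intro v u v' u' e1 e2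
    have := h u v u' v' e1.symm e2.symm
    exact f₂.injective (by rw [e1, e2, this])
  have hc' : ∀ x, (∃ v, f₂ v = x) ∨ ∃ u, f₁ u = x := fun x => (hc x).symm
  have hcpos : ∀ z : V → Ω, 0 < ∏ x ∈ univ.map f₁ ∩ univ.map f₂, w (z x) :=
    fun z => prod_pos fun x _ => hw.pos _
  have key1 : ∀ F : (V₁ → Ω) → ℝ, ∑ z : V → Ω, F (z ∘ f₁) * g₂ (z ∘ f₂) /
      ∏ x ∈ univ.map f₁ ∩ univ.map f₂, w (z x) = ∑ z₁, F z₁ :=
    sum_marg f₁ f₂ h hc hw.pos s2 m2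
  have key2 : ∀ F : (V₂ → Ω) → ℝ, ∑ z : V → Ω, F (z ∘ f₂) * g₁ (z ∘ f₁) /
      ∏ x ∈ univ.map f₁ ∩ univ.map f₂, w (z x) = ∑ z₂, F z₂ := by
    intro F
    have := sum_marg f₂ f₁ h' hc' hw.pos s1 m1 F
    rw [inter_comm] at this
    exact this
  have hm := mH_two f₁ f₂ rfl h hc w U (H₁ := H₁) (H₂ := H₂)
  refine ⟨fun z => g₁ (z ∘ f₁) * g₂ (z ∘ f₂) / ∏ x ∈ univ.map f₁ ∩ univ.map f₂, w (z x),
    fun z => div_nonneg (mul_nonneg (p1 _) (p2 _)) (hcpos z).le, ?_, ?_, ?_, ?_⟩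
  · rw [key1 g₁, s1]
  · intro x s
    rcases hc x with ⟨u, rfl⟩ | ⟨v, rfl⟩
    · rw [sum_filter, ← m1 u s, sum_filter, ← key1 fun z₁ => if z₁ u = s then g₁ z₁ else 0]
      refine sum_congr rfl fun z _ => ?_
      by_cases hz : z (f₁ u) = s
      · rw [if_pos hz, if_pos (show (z ∘ f₁) u = s from hz)]
      · rw [if_neg hz, if_neg (show ¬ (z ∘ f₁) u = s from hz), zero_mul, zero_div]
    · rw [sum_filter, ← m2 v s, sum_filter, ← key2 fun z₂ => if z₂ v = s then g₂ z₂ else 0]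
      refine sum_congr rfl fun z _ => ?_
      by_cases hz : z (f₂ v) = s
      · rw [if_pos hz, if_pos (show (z ∘ f₂) v = s from hz), mul_comm]
      · rw [if_neg hz, if_neg (show ¬ (z ∘ f₂) v = s from hz), zero_mul, zero_div]
  · intro z hz
    have h3 := hm z
    rw [hz, zero_mul] at h3
    dsimp only
    rcases mul_eq_zero.1 h3.symm with h4 | h4
    · rw [z1 _ h4, zero_mul, zero_div]
    · rw [z2 _ h4, mul_zero, zero_div]
  · have hpt : ∀ z : V → Ω, g₁ (z ∘ f₁) * g₂ (z ∘ f₂) /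
        (∏ x ∈ univ.map f₁ ∩ univ.map f₂, w (z x)) *
        Real.log (g₁ (z ∘ f₁) * g₂ (z ∘ f₂) / (∏ x ∈ univ.map f₁ ∩ univ.map f₂, w (z x)) /
          mH (H₁.map f₁ ⊔ H₂.map f₂) w U z) =
        (g₁ (z ∘ f₁) * Real.log (g₁ (z ∘ f₁) / mH H₁ w U (z ∘ f₁))) * g₂ (z ∘ f₂) /
          (∏ x ∈ univ.map f₁ ∩ univ.map f₂, w (z x)) +
        (g₂ (z ∘ f₂) * Real.log (g₂ (z ∘ f₂) / mH H₂ w U (z ∘ f₂))) * g₁ (z ∘ f₁) /
          (∏ x ∈ univ.map f₁ ∩ univ.map f₂, w (z x)) := by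
      intro z
      have hcz := (hcpos z).ne'
      have h3 := hm z
      by_cases hg1 : g₁ (z ∘ f₁) = 0
      · rw [hg1]; simp
      by_cases hg2 : g₂ (z ∘ f₂) = 0
      · rw [hg2]; simp
      have hm1 : mH H₁ w U (z ∘ f₁) ≠ 0 := fun h4 => hg1 (z1 _ h4)
      have hm2 : mH H₂ w U (z ∘ f₂) ≠ 0 := fun h4 => hg2 (z2 _ h4)
      have hq : g₁ (z ∘ f₁) * g₂ (z ∘ f₂) / (∏ x ∈ univ.map f₁ ∩ univ.map f₂, w (z x)) /
          mH (H₁.map f₁ ⊔ H₂.map f₂) w U z =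
          (g₁ (z ∘ f₁) / mH H₁ w U (z ∘ f₁)) * (g₂ (z ∘ f₂) / mH H₂ w U (z ∘ f₂)) := by
        rw [div_div, mul_comm (∏ x ∈ univ.map f₁ ∩ univ.map f₂, w (z x)), h3, mul_div_mul_comm]
      rw [hq, Real.log_mul (div_ne_zero hg1 hm1) (div_ne_zero hg2 hm2)]
      ring
    rw [sum_congr rfl fun z _ => hpt z, sum_add_distrib,
      key1 fun z₁ => g₁ z₁ * Real.log (g₁ z₁ / mH H₁ w U z₁),
      key2 fun z₂ => g₂ z₂ * Real.log (g₂ z₂ / mH H₂ w U z₂)]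
    linarith

end

end Vale.Agent.P050.Opt
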