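import Vale.Agent.P050.O.H904.Top3

set_option linter.all false

/-!
Dense targets, optimal order: the case of equality. A kernel of large mean with equality is a
minimiser of the ratio, so all its rows are close to one, and the case of equality for kernels with
all rows close to one applies.
-/

open Finset Function

namespace Vale.Agent.P050.Opt

open Vale.Agent.P050 Vale.Agent.P050.Dense

/-- equality for all finite kernels with all row averages at least `1 - 1 / (10 ^ 13 D)` only for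
constant kernels, if `H` has a cycle -/
def RowsEqStmt : Prop :=
  ∀ (V : Type) [Fintype V] [DecidableEq V] (H : SimpleGraph V) [DecidableRel H.Adj] (D : ℕ),
    H.IsBipartite → ¬ H.IsAcyclic → 1 ≤ D → (∀ v, H.degree v ≤ D) →
    ∀ (n : ℕ) (W : Fin n → Fin n → ℝ) (hs : ∀ x y, W x y = W y x), 0 < n →
      (∀ x y, 0 ≤ W x y) → (∀ x y, W x y ≤ 1) →
      (∀ x, (1 - 1 / (10 ^ 13 * (D:ℝ))) * n ≤ ∑ y, W x y) →
      tden H W hs = pden W ^ H.edgeFinset.card → ∀ x y, W x y = pden W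

namespace H111

open Vale.Agent.P050.MinRed

variable {V U : Type} [Fintype V] [DecidableEq V] [Fintype U]
variable {E : Finset (V × V)} {D : ℕ} {W : U → U → ℝ} {ε : ℝ}

/-- equality for the kernel `W` and the edges `E` -/
def EqI (W : U → U → ℝ) (E : Finset (V × V)) : Prop :=
  Z W E / (Fintype.card U : ℝ) ^ Fintype.card V = (tot W / (Fintype.card U : ℝ) ^ 2) ^ E.card

/-- two adjacent edges -/
def TwoAdj (E : Finset (V × V)) : Prop :=
  ∃ e ∈ E, ∃ f ∈ E, f ≠ e ∧ (f.1 = e.1 ∨ f.2 = e.1 ∨ f.1 = e.2 ∨ f.2 = e.2)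

/-- equality makes a minimiser -/
theorem isMin_of_eq [Nonempty U] (hall : ∀ W' : U → U → ℝ, Ker W' ε → Ineq W' E)
    (hW : Ker W ε) (heq : EqI W E) : IsMin W ε E := by
  refine ⟨hW, fun W' hW' => ?_⟩
  have hNn : 0 < Fintype.card U := Fintype.card_pos
  have hN : (0 : ℝ) < (Fintype.card U : ℝ) := by exact_mod_cast hNn
  have hNV : (0 : ℝ) < (Fintype.card U : ℝ) ^ Fintype.card V := pow_pos hN _
  have hN2 : (0 : ℝ) < ((Fintype.card U : ℝ) ^ 2) ^ E.card := by positivity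
  have h1 := hall W' hW'
  unfold Ineq at h1
  unfold EqI at heq
  rw [div_pow] at h1 heq
  rw [div_eq_div_iff hNV.ne' hN2.ne'] at heq
  rw [div_le_div_iff₀ hN2 hNV] at h1
  have ht0 : 0 ≤ tot W := sum_nonneg fun a _ => sum_nonneg fun b _ => hW.nonneg a b
  have h2 : (Z W E * tot W' ^ E.card) * ((Fintype.card U : ℝ) ^ 2) ^ E.card ≤
      (Z W' E * tot W ^ E.card) * ((Fintype.card U : ℝ) ^ 2) ^ E.card := by
    calc _ = (Z W E * ((Fintype.card U : ℝ) ^ 2) ^ E.card) * tot W' ^ E.card := by ring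
      _ = (tot W ^ E.card * (Fintype.card U : ℝ) ^ Fintype.card V) * tot W' ^ E.card := by rw [heq]
      _ = tot W ^ E.card * (tot W' ^ E.card * (Fintype.card U : ℝ) ^ Fintype.card V) := by ring
      _ ≤ tot W ^ E.card * (Z W' E * ((Fintype.card U : ℝ) ^ 2) ^ E.card) :=
          mul_le_mul_of_nonneg_left h1 (pow_nonneg ht0 _)
      _ = _ := by ring
  exact le_of_mul_le_mul_right h2 hN2

/-- an isolated edge does not matter -/
theorem EqI_iso [Nonempty U] {e : V × V} (he : e ∈ E) (hne : e.1 ≠ e.2)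
    (h : ∀ f ∈ E, f ≠ e → ¬ (f.1 = e.1 ∨ f.2 = e.1 ∨ f.1 = e.2 ∨ f.2 = e.2)) (ht : 0 < tot W) :
    EqI W E ↔ EqI W (E.erase e) := by
  have hNn : 0 < Fintype.card U := Fintype.card_pos
  have hN : (0 : ℝ) < (Fintype.card U : ℝ) := by exact_mod_cast hNn
  have h1 := Z_iso he hne h W
  have hc : E.card = (E.erase e).card + 1 := (Finset.card_erase_add_one he).symm
  unfold EqI
  have h2 : Z W E / (Fintype.card U : ℝ) ^ Fintype.card V
      = (tot W / (Fintype.card U : ℝ) ^ 2) *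
        (Z W (E.erase e) / (Fintype.card U : ℝ) ^ Fintype.card V) := by
    rw [div_mul_div_comm, ← h1]
    rw [mul_div_mul_left _ _ (by positivity)]
  have h3 : (tot W / (Fintype.card U : ℝ) ^ 2) ≠ 0 := by positivity
  rw [h2, hc, pow_succ' (tot W / (Fintype.card U : ℝ) ^ 2)]
  exact mul_right_inj' h3

theorem eq_noIso [Nonempty U] (hE : Edges E D) (hb : Bip E) (hiso : NoIso E) (hne : E.Nonempty)
    (hε0 : 0 ≤ ε) (hD : 128 * (D:ℝ) * ε ≤ 1) (hε2 : 2 * ε < 1)
    (hgood : ∀ W : U → U → ℝ, Ker W ε →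
      (∀ a, (1 - 17 * ε) * (Fintype.card U : ℝ) ≤ ∑ b, W a b) → Ineq W E)
    (hgeq : ∀ W : U → U → ℝ, Ker W ε →
      (∀ a, (1 - 17 * ε) * (Fintype.card U : ℝ) ≤ ∑ b, W a b) → EqI W E →
      ∀ x y, W x y = tot W / (Fintype.card U : ℝ) ^ 2)
    (hW : Ker W ε) (heq : EqI W E) : ∀ x y, W x y = tot W / (Fintype.card U : ℝ) ^ 2 := by
  have hmin : IsMin W ε E :=
    isMin_of_eq (fun W' hW' => main_noIso3 hE hb hiso hε0 hD hε2 hgood hW') hW heq
  exact hgeq W hW (rows_good3 hE hb hiso hne hmin hε0 hD hε2) heq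

theorem eq_main [Nonempty U] (hε0 : 0 ≤ ε) (hD : 128 * (D:ℝ) * ε ≤ 1) (hε2 : 2 * ε < 1) :
    ∀ (k : ℕ) (E : Finset (V × V)), E.card = k → Edges E D → Bip E → TwoAdj E →
    (∀ W : U → U → ℝ, Ker W ε →
      (∀ a, (1 - 17 * ε) * (Fintype.card U : ℝ) ≤ ∑ b, W a b) → Ineq W E) →
    (∀ W : U → U → ℝ, Ker W ε →
      (∀ a, (1 - 17 * ε) * (Fintype.card U : ℝ) ≤ ∑ b, W a b) → EqI W E →
      ∀ x y, W x y = tot W / (Fintype.card U : ℝ) ^ 2) →
    ∀ W : U → U → ℝ, Ker W ε → EqI W E →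
      ∀ x y, W x y = tot W / (Fintype.card U : ℝ) ^ 2 := by
  intro k
  induction k with
  | zero =>
    intro E hk hE hb htwo
    obtain ⟨e, he, -⟩ := htwo
    rw [Finset.card_eq_zero] at hk
    subst hk
    simp at he
  | succ k ih =>
    intro E hk hE hb htwo hgood hgeq W hW heq
    by_cases hiso : NoIso E
    · exact eq_noIso hE hb hiso (Finset.card_pos.1 (by omega)) hε0 hD hε2 hgood hgeq hW heq
    · unfold NoIso at hiso
      push Not at hiso
      obtain ⟨e, he, hf⟩ := hiso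
      have h : ∀ f ∈ E, f ≠ e → ¬ (f.1 = e.1 ∨ f.2 = e.1 ∨ f.1 = e.2 ∨ f.2 = e.2) := by
        intro f hfE hfe
        have := hf f hfE hfe
        tauto
      have hne := hE.irrefl e he
      have htwo' : TwoAdj (E.erase e) := by
        obtain ⟨p, hp, q, hq, hqp, hadj⟩ := htwo
        have hpe : p ≠ e := by
          rintro rfl
          exact h q hq hqp hadj
        have hqe : q ≠ e := by
          rintro rfl
          refine h p hp hpe ?_
          rcases hadj with h' | h' | h' | h'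
          · exact Or.inl h'.symm
          · exact Or.inr (Or.inr (Or.inl h'.symm))
          · exact Or.inr (Or.inl h'.symm)
          · exact Or.inr (Or.inr (Or.inr h'.symm))
        exact ⟨p, Finset.mem_erase.2 ⟨hpe, hp⟩, q, Finset.mem_erase.2 ⟨hqe, hq⟩, hqp, hadj⟩
      refine ih (E.erase e) (by rw [Finset.card_erase_of_mem he, hk]; rfl)
        (hE.mono (Finset.erase_subset _ _)) (hb.mono (Finset.erase_subset _ _)) htwo'
        (fun W' hW' hr => ?_) (fun W' hW' hr heq' => ?_) W hW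
        ((EqI_iso he hne h (hW.tot_pos (by linarith))).1 heq)
      · rw [← Ineq_iso he hne h (hW'.tot_pos (by linarith))]
        exact hgood W' hW' hr
      · exact hgeq W' hW' hr ((EqI_iso he hne h (hW'.tot_pos (by linarith))).2 heq')

theorem eqI_iff {X : Type} [Fintype X] (H : SimpleGraph V) [DecidableRel H.Adj] (W : X → X → ℝ)
    (hs : ∀ x y, W x y = W y x) :
    EqI W (orient H) ↔ tden H W hs = pden W ^ H.edgeFinset.card := by
  rw [EqI, ← pden_eq, ← tden_eq H W hs, orient_card]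

/-- a cycle contains two adjacent edges -/
theorem twoAdj_orient (H : SimpleGraph V) [DecidableRel H.Adj] (hc : ¬ H.IsAcyclic) :
    TwoAdj (orient H) := by
  unfold SimpleGraph.IsAcyclic at hc
  push Not at hc
  obtain ⟨v, c, hc⟩ := hc
  have h1 : H.Adj v c.snd := c.adj_snd hc.not_nil
  have h2 : H.Adj c.penultimate v := c.adj_penultimate hc.not_nil
  have h12 := hc.snd_ne_penultimate
  set p : V × V := Quot.out s(v, c.snd) with hp
  set q : V × V := Quot.out s(c.penultimate, v) with hq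
  have hpm : p ∈ orient H := by
    refine Finset.mem_image.2 ⟨s(v, c.snd), ?_, rfl⟩
    rw [SimpleGraph.mem_edgeFinset, SimpleGraph.mem_edgeSet]
    exact h1
  have hqm : q ∈ orient H := by
    refine Finset.mem_image.2 ⟨s(c.penultimate, v), ?_, rfl⟩
    rw [SimpleGraph.mem_edgeFinset, SimpleGraph.mem_edgeSet]
    exact h2
  have hps : s(p.1, p.2) = s(v, c.snd) := mk_out _
  have hqs : s(q.1, q.2) = s(c.penultimate, v) := mk_out _
  refine ⟨p, hpm, q, hqm, ?_, ?_⟩
  · intro h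
    rw [h, hps, Sym2.eq_iff] at hqs
    rcases hqs with ⟨h3, h4⟩ | ⟨h3, h4⟩
    · exact h1.ne h4.symm
    · exact h12 h4
  · rw [Sym2.eq_iff] at hps hqs
    rcases hps with ⟨h3, h4⟩ | ⟨h3, h4⟩ <;> rcases hqs with ⟨h5, h6⟩ | ⟨h5, h6⟩
    · exact Or.inr (Or.inl (h6.trans h3.symm))
    · exact Or.inl (h5.trans h3.symm)
    · exact Or.inr (Or.inr (Or.inr (h6.trans h4.symm)))
    · exact Or.inr (Or.inr (Or.inl (h5.trans h4.symm)))

/-- the case of equality of the inequality for kernels of large mean, from the case of equality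
for kernels with all rows close to one -/
theorem kernel_eq_of (hr : RowsEqStmt) {V X : Type} [Fintype V] [DecidableEq V] [Fintype X]
    [Nonempty X] (H : SimpleGraph V) [DecidableRel H.Adj] (hH : H.IsBipartite)
    (hcyc : ¬ H.IsAcyclic) {D : ℕ} (hD : ∀ v, H.degree v ≤ D)
    (W : X → X → ℝ) (hs : ∀ x y, W x y = W y x) (h0 : ∀ x y, 0 ≤ W x y)
    (h1 : ∀ x y, W x y ≤ 1) (hp : 1 - 1 / (10 ^ 15 * (D:ℝ)) ≤ pden W)
    (heq : tden H W hs = pden W ^ H.edgeFinset.card) : ∀ x y, W x y = pden W := by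
  classical
  have htwo := twoAdj_orient H hcyc
  have hD0 : 1 ≤ D := by
    obtain ⟨e, he, -⟩ := htwo
    have h1 := (orient_edges H hD).deg e.1
    have h2 : 0 < (at_ (orient H) e.1).card :=
      card_pos.2 ⟨e, by rw [at_, mem_filter]; exact ⟨he, Or.inl rfl⟩⟩
    omega
  have hDpos : (1:ℝ) ≤ D := by exact_mod_cast hD0
  obtain ⟨ε, hε⟩ : ∃ ε : ℝ, ε = 1 / (10 ^ 15 * (D:ℝ)) := ⟨_, rfl⟩
  rw [← hε] at hp
  have hε0 : 0 ≤ ε := by rw [hε]; positivity
  have hDε : (D:ℝ) * ε = 1 / 10 ^ 15 := by rw [hε]; field_simp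
  have hε8 : 128 * (D:ℝ) * ε ≤ 1 := by
    calc 128 * (D:ℝ) * ε = 128 * ((D:ℝ) * ε) := by ring
      _ ≤ 1 := by rw [hDε]; norm_num
  have hε2 : 2 * ε < 1 := by nlinarith
  have hεθ : 17 * ε ≤ 1 / (10 ^ 13 * (D:ℝ)) := by
    rw [le_div_iff₀ (by positivity)]
    calc 17 * ε * (10 ^ 13 * (D:ℝ)) = 17 * 10 ^ 13 * ((D:ℝ) * ε) := by ring
      _ ≤ 1 := by rw [hDε]; norm_num
  set n := Fintype.card X with hn
  have hn0 : 0 < n := Fintype.card_pos
  have : Nonempty (Fin n) := ⟨⟨0, hn0⟩⟩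
  set φ : Fin n ≃ X := (Fintype.equivFin X).symm with hφ
  have key : ∀ x y, (fun x y => W (φ x) (φ y)) x y = pden fun x y => W (φ x) (φ y) := by
    have hN : (0 : ℝ) < (n : ℝ) ^ 2 := by positivity
    have hrows : ∀ W₁ : Fin n → Fin n → ℝ,
        (∀ a, (1 - 17 * ε) * (Fintype.card (Fin n) : ℝ) ≤ ∑ b, W₁ a b) →
        ∀ x, (1 - 1 / (10 ^ 13 * (D:ℝ))) * n ≤ ∑ y, W₁ x y := by
      intro W₁ hr₁ x
      have := hr₁ x
      rw [Fintype.card_fin] at this
      refine le_trans ?_ this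
      refine mul_le_mul_of_nonneg_right ?_ (by positivity)
      linarith
    refine eq_main hε0 hε8 hε2 _ (orient H) rfl (orient_edges H hD) (bip_orient H hH) htwo
      ?_ ?_ (fun x y => W (φ x) (φ y)) ?_ ?_
    · intro W₁ hK hr₁
      rw [ineq_iff H W₁ hK.symm]
      exact rowsStmt V H D hH hD0 hD n W₁ hK.symm hn0 hK.nonneg hK.le_one (hrows W₁ hr₁)
    · intro W₁ hK hr₁ h₁
      exact hr V H D hH hcyc hD0 hD n W₁ hK.symm hn0 hK.nonneg hK.le_one (hrows W₁ hr₁)
        ((eqI_iff H W₁ hK.symm).1 h₁)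
    · refine ⟨fun a b => hs _ _, fun a b => h0 _ _, fun a b => h1 _ _, ?_⟩
      rw [← pden_equiv φ W, pden_eq, Fintype.card_fin, le_div_iff₀ hN] at hp
      rw [Fintype.card_fin]
      exact hp
    · rw [eqI_iff H (fun x y => W (φ x) (φ y)) (fun x y => hs _ _), pden_equiv φ W,
        tden_equiv H φ W hs]
      exact heq
  intro x y
  have := key (φ.symm x) (φ.symm y)
  rw [pden_equiv φ W] at this
  simpa using this

end H111

end Vale.Agent.P050.Opt
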