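import Vale.Agent.P050.O.H111.Eq
import Vale.Agent.P050.O.H904.Strict
import Vale.Agent.P050.O.H234.RowsEq3
import Vale.Agent.P050.O.H625.CycNe

set_option linter.all false

/-!
Dense targets, optimal order: the case of equality for finite kernels of large mean.
-/

open Finset

namespace Vale.Agent.P050.Opt

open Vale.Agent.P050 Vale.Agent.P050.Dense

theorem rowsEqStmt : RowsEqStmt := by
  intro V _ _ H _ D hH hcyc hD1 hD n W hs hn h0 h1 hmin heq
  have : Nonempty (Fin n) := ⟨⟨0, hn⟩⟩
  have hDpos : (1:ℝ) ≤ D := by exact_mod_cast hD1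
  have ho : Function.Injective fun v : V => ((Fintype.equivFin V v : Fin _) : ℕ) :=
    Fin.val_injective.comp (Fintype.equivFin V).injective
  obtain ⟨k, hk2, hk, hne⟩ := cyc_nonempty H _ ho hH hcyc
  refine H234.rows3_eq_cyc H hH hD1 hD (θ := 1 / (10 ^ 13 * (D:ℝ))) (by positivity)
    (le_of_eq (mul_one_div_cancel (by positivity))) W hs h0 h1 (fun x => ?_) _ ho hk2 hk hne heq
  rw [Fintype.card_fin]
  exact hmin x

/-- **the case of equality**: if `H` is bipartite and has a cycle, equality holds for a kernel of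
large mean only if the kernel is constant -/
theorem dense_kernel3_eq {V X : Type} [Fintype V] [DecidableEq V] [Fintype X] [Nonempty X]
    (H : SimpleGraph V) [DecidableRel H.Adj] (hH : H.IsBipartite) (hcyc : ¬ H.IsAcyclic) {D : ℕ}
    (hD : ∀ v, H.degree v ≤ D)
    (W : X → X → ℝ) (hs : ∀ x y, W x y = W y x) (h0 : ∀ x y, 0 ≤ W x y)
    (h1 : ∀ x y, W x y ≤ 1) (hp : 1 - 1 / (10 ^ 15 * (D:ℝ)) ≤ pden W)
    (heq : tden H W hs = pden W ^ H.edgeFinset.card) : ∀ x y, W x y = pden W :=
  H111.kernel_eq_of rowsEqStmt H hH hcyc hD W hs h0 h1 hp heq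

theorem kernelEqStmt : KernelEqStmt := by
  intro V X _ _ _ _ H _ D hH hc hD W hs h0 h1 hp heq
  exact dense_kernel3_eq H hH hc hD W hs h0 h1 hp heq

end Vale.Agent.P050.Opt
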