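import Vale.Agent.P050.O.H300.StarDefs

set_option linter.all false

/-!
Dense targets, graphs glued at single vertices: the weighted inequality is closed under gluing.
-/

open MeasureTheory Finset Function

namespace Vale.Agent.P050.Opt

open Vale.Agent.P050 Vale.Agent.P050.Dense

namespace H111

section one

variable {Ω : Type*} [MeasurableSpace Ω] [Fintype Ω] [MeasurableSingletonClass Ω]
variable (μ : Measure Ω) [IsProbabilityMeasure μ]

theorem bmf {X : Type*} [MeasurableSpace X] [Finite X] [MeasurableSingletonClass X] (f : X → ℝ) :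
    BM f := by
  refine ⟨measurable_of_finite _, ?_⟩
  obtain ⟨C, hC⟩ := (Set.finite_range fun x => |f x|).bddAbove
  exact ⟨C, fun x => hC ⟨x, rfl⟩⟩

/-- the inequality for all weights at one point gives positivity and a bound for the logarithm -/
theorem logP_of {F : Ω → ℝ} {L : ℝ} (hF : ∀ s, 0 ≤ F s)
    (h : ∀ g : Ω → ℝ, (∀ s, 0 < g s) → 0 < ∫ s, g s * F s ∂μ ∧
      ∫ s, Real.log (g s) ∂μ + L ≤ Real.log (∫ s, g s * F s ∂μ)) :
    (∀ᵐ s ∂μ, 0 < F s) ∧ L ≤ ∫ s, Real.log (F s) ∂μ := by
  have key : ∀ t : ℝ, 0 < t →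
      μ.real {s | F s = 0} * Real.log t + L ≤ ∫ s, Real.log (F s) ∂μ := by
    intro t ht
    obtain ⟨h1, h2⟩ := h (fun s => if F s = 0 then t else (F s)⁻¹) (fun s => by
      split_ifs with hs
      · exact ht
      · exact inv_pos.2 (lt_of_le_of_ne (hF s) (Ne.symm hs)))
    have h3 : ∫ s, (if F s = 0 then t else (F s)⁻¹) * F s ∂μ ≤ 1 := by
      have : ∫ s, (if F s = 0 then t else (F s)⁻¹) * F s ∂μ ≤ ∫ _s, (1:ℝ) ∂μ := by
        refine integral_mono Integrable.of_finite Integrable.of_finite fun s => ?_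
        dsimp only
        split_ifs with hs
        · rw [hs]; simp
        · rw [inv_mul_cancel₀ hs]
      simpa using this
    have h4 := Real.log_nonpos h1.le h3
    have h5 : ∫ s, Real.log (if F s = 0 then t else (F s)⁻¹) ∂μ =
        μ.real {s | F s = 0} * Real.log t - ∫ s, Real.log (F s) ∂μ := by
      have h6 : ∀ s, Real.log (if F s = 0 then t else (F s)⁻¹) =
          Set.indicator {s | F s = 0} (fun _ => Real.log t) s - Real.log (F s) := by
        intro s
        by_cases hs : F s = 0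
        · have hm : s ∈ {s | F s = 0} := hs
          rw [if_pos hs, Set.indicator_of_mem hm, hs, Real.log_zero, sub_zero]
        · have hm : s ∉ {s | F s = 0} := hs
          rw [if_neg hs, Set.indicator_of_notMem hm, Real.log_inv, zero_sub]
      simp_rw [h6]
      rw [integral_sub Integrable.of_finite Integrable.of_finite,
        integral_indicator_const _ (Set.toFinite _).measurableSet, smul_eq_mul]
    linarith
  refine ⟨?_, ?_⟩
  · have hz : μ.real {s | F s = 0} = 0 := by
      by_contra hne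
      have hpos : 0 < μ.real {s | F s = 0} := lt_of_le_of_ne measureReal_nonneg (Ne.symm hne)
      have := key (Real.exp ((∫ s, Real.log (F s) ∂μ - L + 1) / μ.real {s | F s = 0}))
        (Real.exp_pos _)
      rw [Real.log_exp, mul_div_cancel₀ _ hne] at this
      linarith
    rw [ae_iff]
    have h7 : {s | ¬ 0 < F s} = {s | F s = 0} := by
      ext s
      constructor
      · intro hs
        exact le_antisymm (not_lt.1 hs) (hF s)
      · intro hs
        have hs' : F s = 0 := hs
        show ¬ 0 < F s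
        rw [hs']
        exact lt_irrefl _
    rw [h7]
    exact (measureReal_eq_zero_iff).1 hz
  · have := key 1 one_pos
    simpa using this

/-- Jensen -/
theorem jensen {φ : Ω → ℝ} (hφ : ∀ᵐ s ∂μ, 0 < φ s) :
    0 < ∫ s, φ s ∂μ ∧ ∫ s, Real.log (φ s) ∂μ ≤ Real.log (∫ s, φ s ∂μ) := by
  have h0 : 0 < ∫ s, φ s ∂μ := by
    rw [integral_pos_iff_support_of_nonneg_ae (hφ.mono fun s hs => hs.le) Integrable.of_finite]
    have : μ (Function.support φ) = 1 := by
      rw [← prob_compl_eq_zero_iff (Set.toFinite _).measurableSet]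
      rw [ae_iff] at hφ
      refine measure_mono_null ?_ hφ
      intro s hs h1
      exact hs h1.ne'
    rw [this]
    exact one_pos
  refine ⟨h0, ?_⟩
  have h1 : ∫ s, Real.log (φ s) ∂μ ≤ ∫ s, (Real.log (∫ s, φ s ∂μ) +
      (φ s / (∫ s, φ s ∂μ) - 1)) ∂μ := by
    refine integral_mono_ae Integrable.of_finite Integrable.of_finite ?_
    filter_upwards [hφ] with s hs
    have h2 := Real.log_le_sub_one_of_pos (div_pos hs h0)
    rw [Real.log_div hs.ne' h0.ne'] at h2
    linarith
  rw [integral_add Integrable.of_finite Integrable.of_finite,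
    integral_sub Integrable.of_finite Integrable.of_finite, integral_div, div_self h0.ne'] at h1
  simpa using h1

end one

section glue

variable {V : Type*} [Fintype V] [DecidableEq V] {Ω : Type*} [MeasurableSpace Ω]
  [Fintype Ω] [MeasurableSingletonClass Ω]
variable (μ : Measure Ω) [IsProbabilityMeasure μ] {U : Sym2 Ω → ℝ} {κ η : ℝ}

/-- the vertex `x` fixed at `s`, weights on `A` -/
noncomputable def Fp (H : SimpleGraph V) [DecidableRel H.Adj] (U : Sym2 Ω → ℝ) (k : V → Ω → ℝ)
    (x : V) (A : Finset V) (s : Ω) : ℝ :=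
  ∫ z, (∏ v ∈ A, k v (z v)) * ∏ e ∈ H.edgeFinset, (1 + U (e.map (update z x s))) ∂(piM V μ)

theorem Zk_split (H : SimpleGraph V) [DecidableRel H.Adj] (k : V → Ω → ℝ) (x : V) :
    Zk H μ U k = ∫ s, k x s * Fp μ H U k x (univ.erase x) s ∂μ := by
  unfold Zk
  rw [integral_update μ x (bmf _), integral_integral_swap Integrable.of_finite]
  congr 1
  ext s
  unfold Fp
  rw [← integral_const_mul]
  congr 1
  ext z
  rw [← mul_prod_erase univ _ (mem_univ x), update_self, mul_assoc]
  congr 2
  refine prod_congr rfl fun v hv => ?_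
  rw [update_of_ne (ne_of_mem_erase hv)]

theorem one_add_nonneg (hU : Ker μ U κ η) (e : Sym2 Ω) : 0 ≤ 1 + U e := by
  have := (abs_le.1 (hU.good.bdd e)).1
  linarith

theorem Fp_nonneg (hU : Ker μ U κ η) (H : SimpleGraph V) [DecidableRel H.Adj] {k : V → Ω → ℝ}
    (hk : ∀ v s, 0 < k v s) (x : V) (A : Finset V) (s : Ω) : 0 ≤ Fp μ H U k x A s :=
  integral_nonneg fun z => mul_nonneg (prod_nonneg fun v _ => (hk v _).le)
    (prod_nonneg fun e _ => one_add_nonneg μ hU _)

open scoped Classical in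
theorem Fp_log (hU : Ker μ U κ η) {H : SimpleGraph V} (h : Star H μ U) {k : V → Ω → ℝ}
    (hk : ∀ v s, 0 < k v s) {x : V} {A : Finset V} (hx : x ∉ A) :
    (∀ᵐ s ∂μ, 0 < Fp μ H U k x A s) ∧
      ∑ v ∈ A, ∫ s, Real.log (k v s) ∂μ ≤ ∫ s, Real.log (Fp μ H U k x A s) ∂μ := by
  refine logP_of μ (Fp_nonneg μ hU H hk x A) fun g hg => ?_
  set k' : V → Ω → ℝ := fun v => if v = x then g else if v ∈ A then k v else fun _ => 1 with hk'
  have hA : A ⊆ univ.erase x := fun v hv =>
    mem_erase.2 ⟨fun h => hx (h ▸ hv), mem_univ v⟩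
  have kx : k' x = g := by rw [hk']; simp
  have kA : ∀ v ∈ A, k' v = k v := by
    intro v hv
    have : v ≠ x := fun h => hx (h ▸ hv)
    rw [hk']
    simp only [if_neg this, if_pos hv]
  have kN : ∀ v ∈ univ.erase x, v ∉ A → k' v = fun _ => 1 := by
    intro v hv hvA
    rw [hk']
    simp only [if_neg (ne_of_mem_erase hv), if_neg hvA]
  have h1 := h k' (fun v s => by
    rw [hk']
    dsimp only
    split_ifs
    · exact hg s
    · exact hk v s
    · exact one_pos)
  have hF : ∀ s, Fp μ H U k' x (univ.erase x) s = Fp μ H U k x A s := by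
    intro s
    unfold Fp
    congr 1
    ext z
    congr 1
    rw [← prod_subset hA fun v hv hvA => by rw [kN v hv hvA]]
    exact prod_congr rfl fun v hv => by rw [kA v hv]
  rw [Zk_split μ H k' x, kx] at h1
  simp only [hF] at h1
  refine ⟨h1.1, le_trans (le_of_eq ?_) h1.2⟩
  rw [← add_sum_erase univ _ (mem_univ x), kx]
  congr 1
  rw [← sum_subset hA fun v hv hvA => by rw [kN v hv hvA]; simp]
  exact sum_congr rfl fun v hv => by rw [kA v hv]

theorem mem_edge_of {H : SimpleGraph V} {e : Sym2 V} (he : e ∈ H.edgeSet) {v : V} (hv : v ∈ e) :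
    H.neighborSet v ≠ ∅ := by
  obtain ⟨w, rfl⟩ := Sym2.mem_iff_exists.1 hv
  rw [SimpleGraph.mem_edgeSet] at he
  exact Set.nonempty_iff_ne_empty.1 ⟨w, he⟩

/-- the product over the edges does not depend on an isolated vertex -/
theorem ind_edges (H : SimpleGraph V) [DecidableRel H.Adj] (U : Sym2 Ω → ℝ) {x v : V}
    (hv : v = x ∨ H.neighborSet v = ∅) (s : Ω) (z : V → Ω) (y : Ω) :
    ∏ e ∈ H.edgeFinset, (1 + U (e.map (update (update z v y) x s))) =
      ∏ e ∈ H.edgeFinset, (1 + U (e.map (update z x s))) := by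
  by_cases hvx : v = x
  · subst hvx
    rw [update_idem]
  have hv' := hv.resolve_left hvx
  refine prod_congr rfl fun e he => ?_
  rw [update_comm hvx, map_update_of_notMem]
  intro hve
  exact mem_edge_of (SimpleGraph.mem_edgeFinset.1 he) hve hv'

theorem ind_prod (k : V → Ω → ℝ) {A : Finset V} {v : V} (hv : v ∉ A) (z : V → Ω) (y : Ω) :
    ∏ w ∈ A, k w (update z v y w) = ∏ w ∈ A, k w (z w) :=
  prod_congr rfl fun w hw => by rw [update_of_ne fun h => hv (by rw [← h]; exact hw)]

end glue

end H111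

section

variable {V : Type*} [Fintype V] [DecidableEq V] {Ω : Type*} [MeasurableSpace Ω]
  [Fintype Ω] [MeasurableSingletonClass Ω]
variable (μ : Measure Ω) [IsProbabilityMeasure μ] {U : Sym2 Ω → ℝ} {κ η : ℝ}

open scoped Classical in
open H111 in
theorem H111.star_glue_aux (hU : Ker μ U κ η) {H H₁ H₂ : SimpleGraph V} (hH : H = H₁ ⊔ H₂) (x : V)
    (h : ∀ v, v ≠ x → H₁.neighborSet v = ∅ ∨ H₂.neighborSet v = ∅) (h1 : Star H₁ μ U)
    (h2 : Star H₂ μ U) : Star H μ U := by
  intro k hk
  set A : Finset V := (univ.erase x).filter fun v => H₂.neighborSet v = ∅ with hA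
  set B : Finset V := (univ.erase x).filter fun v => ¬ H₂.neighborSet v = ∅ with hB
  have hxA : x ∉ A := fun hx => (mem_erase.1 (mem_filter.1 hx).1).1 rfl
  have hxB : x ∉ B := fun hx => (mem_erase.1 (mem_filter.1 hx).1).1 rfl
  have hAB : Disjoint A B := disjoint_filter_filter_not _ _ _
  have hun : univ.erase x = A ∪ B := (filter_union_filter_not_eq _ _).symm
  have i1 : ∀ v, v ∉ A → v = x ∨ H₁.neighborSet v = ∅ := by
    intro v hv
    by_cases hvx : v = x
    · exact Or.inl hvx
    · right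
      refine (h v hvx).resolve_right fun h2 => hv ?_
      rw [hA, mem_filter]
      exact ⟨mem_erase.2 ⟨hvx, mem_univ v⟩, h2⟩
  have i2 : ∀ v ∈ A, v = x ∨ H₂.neighborSet v = ∅ := fun v hv => Or.inr (mem_filter.1 hv).2
  have hE : H.edgeFinset = H₁.edgeFinset ∪ H₂.edgeFinset := by
    ext e
    rw [mem_union, SimpleGraph.mem_edgeFinset, SimpleGraph.mem_edgeFinset,
      SimpleGraph.mem_edgeFinset, hH, SimpleGraph.edgeSet_sup]
    rfl
  have hEd : Disjoint H₁.edgeFinset H₂.edgeFinset := by
    rw [disjoint_left]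
    intro e he1 he2
    rw [SimpleGraph.mem_edgeFinset] at he1 he2
    induction e with
    | h a b =>
      have hne : a ≠ b := by
        rw [SimpleGraph.mem_edgeSet] at he1
        exact he1.ne
      have hax : a = x := by
        by_contra hax
        rcases h a hax with h3 | h3
        · exact mem_edge_of he1 (Sym2.mem_mk_left a b) h3
        · exact mem_edge_of he2 (Sym2.mem_mk_left a b) h3
      have hbx : b = x := by
        by_contra hbx
        rcases h b hbx with h3 | h3
        · exact mem_edge_of he1 (Sym2.mem_mk_right a b) h3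
        · exact mem_edge_of he2 (Sym2.mem_mk_right a b) h3
      exact hne (hax.trans hbx.symm)
  obtain ⟨p1, l1⟩ := Fp_log μ hU h1 hk hxA
  obtain ⟨p2, l2⟩ := Fp_log μ hU h2 hk hxB
  have hF : ∀ s, Fp μ H U k x (univ.erase x) s =
      Fp μ H₁ U k x A s * Fp μ H₂ U k x B s := by
    intro s
    unfold Fp
    rw [← integral_mul_of_ind μ A (fun z => (∏ v ∈ A, k v (z v)) *
        ∏ e ∈ H₁.edgeFinset, (1 + U (e.map (update z x s))))
      (fun z => (∏ v ∈ B, k v (z v)) *
        ∏ e ∈ H₂.edgeFinset, (1 + U (e.map (update z x s)))) (bmf _) (bmf _)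
      (fun v hv z y => ?_) (fun v hv z y => ?_)]
    · congr 1
      ext z
      rw [hun, prod_union hAB, hE, prod_union hEd]
      ring
    · dsimp only
      rw [ind_prod k hv, ind_edges H₁ U (i1 v hv)]
    · dsimp only
      rw [ind_prod k (disjoint_left.1 hAB hv), ind_edges H₂ U (i2 v hv)]
  have hZ : Zk H μ U k = ∫ s, k x s * (Fp μ H₁ U k x A s * Fp μ H₂ U k x B s) ∂μ := by
    rw [Zk_split μ H k x]
    simp only [hF]
  rw [hZ]
  have hpos : ∀ᵐ s ∂μ, 0 < k x s * (Fp μ H₁ U k x A s * Fp μ H₂ U k x B s) := by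
    filter_upwards [p1, p2] with s q1 q2
    exact mul_pos (hk x s) (mul_pos q1 q2)
  obtain ⟨j1, j2⟩ := jensen μ hpos
  refine ⟨j1, le_trans ?_ j2⟩
  have hlog : ∫ s, Real.log (k x s * (Fp μ H₁ U k x A s * Fp μ H₂ U k x B s)) ∂μ =
      ∫ s, Real.log (k x s) ∂μ + (∫ s, Real.log (Fp μ H₁ U k x A s) ∂μ +
        ∫ s, Real.log (Fp μ H₂ U k x B s) ∂μ) := by
    rw [← integral_add Integrable.of_finite Integrable.of_finite,
      ← integral_add Integrable.of_finite Integrable.of_finite]
    refine integral_congr_ae ?_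
    filter_upwards [p1, p2] with s q1 q2
    rw [Real.log_mul (hk x s).ne' (mul_pos q1 q2).ne', Real.log_mul q1.ne' q2.ne']
  rw [hlog, ← add_sum_erase univ _ (mem_univ x), hun, sum_union hAB]
  linarith

/-- V5: gluing at one vertex -/
theorem star_glue (hU : Ker μ U κ η) {H₁ H₂ : SimpleGraph V} (x : V)
    (h : ∀ v, v ≠ x → H₁.neighborSet v = ∅ ∨ H₂.neighborSet v = ∅) (h1 : Star H₁ μ U)
    (h2 : Star H₂ μ U) : Star (H₁ ⊔ H₂) μ U :=
  H111.star_glue_aux μ hU rfl x h h1 h2

end

end Vale.Agent.P050.Opt
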