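import Vale.Agent.P050.O.H300.SubDefs
import Vale.Agent.P050.Bdl.B1

set_option linter.all false

/-!
Long subdivisions: the edges of a subdivision.
-/

open Finset

namespace Vale.Agent.P050.Opt

open Vale.Agent.P050

namespace H111

variable {V : Type} {F : SimpleGraph V}

lemma out_mk (e : F.edgeSet) : s((Quot.out e.1).1, (Quot.out e.1).2) = e.1 :=
  Quot.out_eq e.1

lemma out_ne (e : F.edgeSet) : (Quot.out e.1).1 ≠ (Quot.out e.1).2 := by
  have h : F.Adj (Quot.out e.1).1 (Quot.out e.1).2 := by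
    rw [← SimpleGraph.mem_edgeSet, out_mk]
    exact e.2
  exact h.ne

lemma node_mid {ℓ : ℕ} (e : F.edgeSet) {i : ℕ} (h : 0 < i ∧ i < ℓ) :
    node F ℓ e i = Sum.inr (e, ⟨i - 1, by omega⟩) := by
  unfold node
  rw [dif_pos h]

lemma node_zero {ℓ : ℕ} (e : F.edgeSet) : node F ℓ e 0 = Sum.inl (Quot.out e.1).1 := by
  unfold node
  rw [dif_neg (by omega), if_pos rfl]

lemma node_last {ℓ : ℕ} (hℓ : 1 ≤ ℓ) (e : F.edgeSet) :
    node F ℓ e ℓ = Sum.inl (Quot.out e.1).2 := by
  unfold node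
  rw [dif_neg (by omega), if_neg (by omega)]

/-- the new vertices -/
lemma node_inr {ℓ : ℕ} {e e' : F.edgeSet} {i : ℕ} {j : Fin (ℓ - 1)} (hi : i ≤ ℓ)
    (h : node F ℓ e i = Sum.inr (e', j)) : e = e' ∧ i = j + 1 := by
  by_cases h0 : 0 < i ∧ i < ℓ
  · rw [node_mid e h0] at h
    have h1 := Sum.inr.inj h
    have h2 := congrArg Prod.fst h1
    have h3 := congrArg (fun q => (q.2 : ℕ)) h1
    simp only at h2 h3
    exact ⟨h2, by omega⟩
  · unfold node at h
    rw [dif_neg h0] at h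
    split_ifs at h

/-- the old vertices -/
lemma node_inl {ℓ : ℕ} {e : F.edgeSet} {i : ℕ} {v : V} (hi : i ≤ ℓ)
    (h : node F ℓ e i = Sum.inl v) :
    (i = 0 ∧ v = (Quot.out e.1).1) ∨ (i ≠ 0 ∧ i = ℓ ∧ v = (Quot.out e.1).2) := by
  by_cases h0 : 0 < i ∧ i < ℓ
  · rw [node_mid e h0] at h
    exact absurd h (by simp)
  · unfold node at h
    rw [dif_neg h0] at h
    split_ifs at h with h1
    · exact Or.inl ⟨h1, (Sum.inl.inj h).symm⟩
    · exact Or.inr ⟨h1, by omega, (Sum.inl.inj h).symm⟩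

lemma node_succ_ne {ℓ : ℕ} (e : F.edgeSet) {i : ℕ} (hi : i < ℓ) :
    node F ℓ e i ≠ node F ℓ e (i + 1) := by
  intro h
  rcases hv : node F ℓ e i with v | ⟨e', j⟩
  · rw [hv] at h
    rcases node_inl hi.le hv with ⟨h1, h2⟩ | ⟨h1, h2, h3⟩
    · rcases node_inl (by omega) h.symm with ⟨g1, g2⟩ | ⟨g1, g2, g3⟩
      · omega
      · exact out_ne e (h2.symm.trans g3)
    · omega
  · rw [hv] at h
    have h1 := (node_inr hi.le hv).2
    have h2 := (node_inr (by omega) h.symm).2
    omega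

/-- the edges of the subdivision are different -/
lemma edge_inj {ℓ : ℕ} {e e' : F.edgeSet} {i i' : ℕ} (hi : i < ℓ) (hi' : i' < ℓ)
    (h : s(node F ℓ e i, node F ℓ e (i + 1)) = s(node F ℓ e' i', node F ℓ e' (i' + 1))) :
    e = e' ∧ i = i' := by
  rcases Sym2.eq_iff.1 h with ⟨h1, h2⟩ | ⟨h1, h2⟩
  · -- the same orientation
    rcases hv : node F ℓ e i with v | ⟨a, j⟩
    · rcases hw : node F ℓ e (i + 1) with w | ⟨b, k⟩
      · -- both ends are old
        rw [hv] at h1
        rw [hw] at h2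
        rcases node_inl hi.le hv with ⟨g1, g2⟩ | ⟨g1, g2, g3⟩
        · rcases node_inl (by omega) hw with ⟨k1, k2⟩ | ⟨k1, k2, k3⟩
          · omega
          · rcases node_inl hi'.le h1.symm with ⟨l1, l2⟩ | ⟨l1, l2, l3⟩
            · rcases node_inl (by omega) h2.symm with ⟨m1, m2⟩ | ⟨m1, m2, m3⟩
              · omega
              · refine ⟨Subtype.ext ?_, by omega⟩
                rw [← out_mk e, ← out_mk e', ← g2, ← k3, ← l2, ← m3]
            · omega
        · omega
      · rw [hw] at h2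
        obtain ⟨g1, g2⟩ := node_inr (by omega) hw
        obtain ⟨k1, k2⟩ := node_inr (by omega) h2.symm
        exact ⟨g1.trans k1.symm, by omega⟩
    · rw [hv] at h1
      obtain ⟨g1, g2⟩ := node_inr hi.le hv
      obtain ⟨k1, k2⟩ := node_inr hi'.le h1.symm
      exact ⟨g1.trans k1.symm, by omega⟩
  · -- the opposite orientation
    rcases hv : node F ℓ e i with v | ⟨a, j⟩
    · rcases hw : node F ℓ e (i + 1) with w | ⟨b, k⟩
      · rw [hv] at h1
        rw [hw] at h2
        rcases node_inl hi.le hv with ⟨g1, g2⟩ | ⟨g1, g2, g3⟩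
        · rcases node_inl (by omega) hw with ⟨k1, k2⟩ | ⟨k1, k2, k3⟩
          · omega
          · rcases node_inl (by omega) h1.symm with ⟨l1, l2⟩ | ⟨l1, l2, l3⟩
            · omega
            · rcases node_inl hi'.le h2.symm with ⟨m1, m2⟩ | ⟨m1, m2, m3⟩
              · refine ⟨Subtype.ext ?_, by omega⟩
                rw [← out_mk e, ← out_mk e', ← g2, ← k3, ← l3, ← m2]
                exact Sym2.eq_swap
              · omega
        · omega
      · rw [hw] at h2
        rw [hv] at h1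
        obtain ⟨g1, g2⟩ := node_inr (by omega) hw
        obtain ⟨k1, k2⟩ := node_inr hi'.le h2.symm
        rcases node_inl hi.le hv with ⟨l1, l2⟩ | ⟨l1, l2, l3⟩
        · rcases node_inl (by omega) h1.symm with ⟨m1, m2⟩ | ⟨m1, m2, m3⟩
          · omega
          · have hee : e = e' := g1.trans k1.symm
            subst hee
            exact absurd (l2.symm.trans m3) (out_ne e)
        · omega
    · rw [hv] at h1
      obtain ⟨g1, g2⟩ := node_inr hi.le hv
      obtain ⟨k1, k2⟩ := node_inr (by omega) h1.symm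
      have hee : e = e' := g1.trans k1.symm
      subst hee
      rcases hw : node F ℓ e (i + 1) with w | ⟨b, k⟩
      · rw [hw] at h2
        rcases node_inl (by omega) hw with ⟨l1, l2⟩ | ⟨l1, l2, l3⟩
        · omega
        · rcases node_inl hi'.le h2.symm with ⟨m1, m2⟩ | ⟨m1, m2, m3⟩
          · exact absurd (m2.symm.trans l3) (out_ne e)
          · omega
      · rw [hw] at h2
        obtain ⟨l1, l2⟩ := node_inr (by omega) hw
        obtain ⟨m1, m2⟩ := node_inr hi'.le h2.symm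
        omega

/-- the product over the edges of a subdivision -/
theorem prod_subdiv {V X : Type} [Fintype V] [DecidableEq V] (F : SimpleGraph V)
    [DecidableRel F.Adj] {ℓ : ℕ} (hℓ : 1 ≤ ℓ)
    [Fintype (V ⊕ (F.edgeSet × Fin (ℓ - 1)))] [DecidableEq (V ⊕ (F.edgeSet × Fin (ℓ - 1)))]
    [DecidableRel (subdiv ℓ F).Adj] (W : X → X → ℝ) (hs : ∀ x y, W x y = W y x)
    (z : V ⊕ (F.edgeSet × Fin (ℓ - 1)) → X) :
    ∏ e ∈ (subdiv ℓ F).edgeFinset, ev W hs z e =
      ∏ e : F.edgeSet, ∏ i ∈ Finset.range ℓ,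
        W (z (node F ℓ e i)) (z (node F ℓ e (i + 1))) := by
  classical
  rw [← Finset.prod_product' (univ : Finset F.edgeSet) (range ℓ)
    (fun e i => W (z (node F ℓ e i)) (z (node F ℓ e (i + 1))))]
  symm
  refine Finset.prod_bij (fun q _ => s(node F ℓ q.1 q.2, node F ℓ q.1 (q.2 + 1)))
    (fun q hq => ?_) (fun q hq q' hq' h => ?_) (fun e he => ?_) (fun q _ => rfl)
  · have hi : q.2 < ℓ := mem_range.1 (mem_product.1 hq).2
    rw [SimpleGraph.mem_edgeFinset, SimpleGraph.mem_edgeSet]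
    exact ⟨node_succ_ne q.1 hi, Or.inl ⟨q.1, q.2, hi, rfl, rfl⟩⟩
  · obtain ⟨h1, h2⟩ := edge_inj (mem_range.1 (mem_product.1 hq).2)
      (mem_range.1 (mem_product.1 hq').2) h
    exact Prod.ext h1 h2
  · induction e with
    | h x y =>
      rw [SimpleGraph.mem_edgeFinset, SimpleGraph.mem_edgeSet] at he
      obtain ⟨hne, h | h⟩ := he
      · obtain ⟨e, i, hi, h1, h2⟩ := h
        exact ⟨(e, i), mem_product.2 ⟨mem_univ _, mem_range.2 hi⟩, by rw [h1, h2]⟩
      · obtain ⟨e, i, hi, h1, h2⟩ := h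
        refine ⟨(e, i), mem_product.2 ⟨mem_univ _, mem_range.2 hi⟩, ?_⟩
        rw [h1, h2]
        exact Sym2.eq_swap

end H111

end Vale.Agent.P050.Opt
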