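import Vale.Agent.P050.O.H300.AsmDefs
import Mathlib.Combinatorics.Pigeonhole

set_option linter.all false

/-!
Assembled graphs, F2: the method of types.
-/

open MeasureTheory Finset

namespace Vale.Agent.P050.Opt

open Vale.Agent.P050 Vale.Agent.P050.Dense

namespace H111

section

variable {A : Type*} [Fintype A] [DecidableEq A] {N : ℕ}

/-- the number of occurrences -/
def cnt (Z : Fin N → A) (a : A) : ℕ := (univ.filter fun i => Z i = a).card

theorem emp_eq (Z : Fin N → A) (a : A) : emp Z a = (cnt Z a : ℝ) / N := rfl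

theorem cnt_lt (Z : Fin N → A) (a : A) : cnt Z a < N + 1 := by
  have := card_le_univ (univ.filter fun i => Z i = a)
  rw [Fintype.card_fin] at this
  exact Nat.lt_succ_of_le this

theorem sum_cnt (Z : Fin N → A) : ∑ a, cnt Z a = N := by
  have := card_eq_sum_card_fiberwise (s := (univ : Finset (Fin N))) (t := (univ : Finset A))
    (f := Z) (fun i _ => mem_coe.2 (mem_univ _))
  rw [card_univ, Fintype.card_fin] at this
  exact this.symm

theorem prod_cnt (Z : Fin N → A) (m : A → ℝ) : ∏ i, m (Z i) = ∏ a, m a ^ cnt Z a := by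
  rw [← prod_fiberwise univ Z]
  refine prod_congr rfl fun a _ => ?_
  have h : ∀ i ∈ univ.filter (fun i => Z i = a), m (Z i) = m a := by
    intro i hi
    rw [(mem_filter.1 hi).2]
  rw [prod_congr rfl h, prod_const]
  rfl

end

end H111

open H111 in
/-- F2: types -/
theorem types_law {A : Type} [Fintype A] [DecidableEq A] (m : A → ℝ) (hm : ∀ a, 0 ≤ m a)
    {N : ℕ} (hN : 0 < N) (P : (A → ℝ) → Prop) {c : ℝ} (hc : 0 < c)
    (h : c ≤ ∑ Z : Fin N → A, (open scoped Classical in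
      if P (emp Z) then ∏ i, m (Z i) else 0)) :
    ∃ τ : A → ℝ, P τ ∧ (∀ a, 0 ≤ τ a) ∧ ∑ a, τ a = 1 ∧ (∀ a, m a = 0 → τ a = 0) ∧
      ∑ a, τ a * Real.log (τ a / m a) ≤
        (Fintype.card A * Real.log (N + 1) - Real.log c) / N := by
  classical
  have hNr : (0:ℝ) < N := by exact_mod_cast hN
  set κ : (Fin N → A) → (A → Fin (N + 1)) := fun Z a => ⟨cnt Z a, cnt_lt Z a⟩ with hκ
  set b : ℝ := c / ((N:ℝ) + 1) ^ Fintype.card A with hb
  have hb0 : 0 < b := by positivity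
  rw [← sum_filter] at h
  obtain ⟨y, -, hy⟩ : ∃ y ∈ (univ : Finset (A → Fin (N + 1))), b ≤
      ∑ Z ∈ (univ.filter fun Z : Fin N → A => P (emp Z)) with κ Z = y, ∏ i, m (Z i) := by
    refine exists_le_sum_fiber_of_maps_to_of_nsmul_le_sum (fun _ _ => mem_univ _)
      ⟨fun _ => 0, mem_univ _⟩ (le_trans (le_of_eq ?_) h)
    rw [card_univ, Fintype.card_fun, Fintype.card_fin, nsmul_eq_mul, hb]
    push_cast
    field_simp
  set T : Finset (Fin N → A) := (univ.filter fun Z : Fin N → A => P (emp Z)).filter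
    fun Z => κ Z = y with hT
  obtain ⟨Z₀, hZ₀⟩ : T.Nonempty := by
    rw [nonempty_iff_ne_empty]
    intro h0
    rw [h0, sum_empty] at hy
    linarith
  have hcn : ∀ Z ∈ T, ∀ a, cnt Z a = cnt Z₀ a := by
    intro Z hZ a
    have h1 := (mem_filter.1 hZ).2
    have h2 := (mem_filter.1 hZ₀).2
    have h3 := congrFun (h1.trans h2.symm) a
    exact congrArg Fin.val h3
  have hP : P (emp Z₀) := (mem_filter.1 (mem_filter.1 hZ₀).1).2
  have hsum1 : ∑ a, emp Z₀ a = 1 := by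
    simp only [emp_eq]
    rw [← sum_div, ← Nat.cast_sum, sum_cnt, div_self hNr.ne']
  have hpr : ∀ (f : A → ℝ), ∀ Z ∈ T, ∏ i, f (Z i) = ∏ a, f a ^ cnt Z₀ a := by
    intro f Z hZ
    rw [prod_cnt]
    exact prod_congr rfl fun a _ => by rw [hcn Z hZ a]
  have hM : b ≤ (T.card : ℝ) * ∏ a, m a ^ cnt Z₀ a := by
    rw [sum_congr rfl (hpr m), sum_const, nsmul_eq_mul] at hy
    exact hy
  have hQ : (T.card : ℝ) * ∏ a, emp Z₀ a ^ cnt Z₀ a ≤ 1 := by
    rw [← nsmul_eq_mul, ← sum_const, ← sum_congr rfl (hpr (emp Z₀))]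
    have h1 : ∑ Z : Fin N → A, ∏ i, emp Z₀ (Z i) = 1 := by
      rw [← Fintype.piFinset_univ, ← prod_univ_sum, hsum1]
      simp
    rw [← h1]
    refine sum_le_sum_of_subset_of_nonneg (subset_univ _) fun Z _ _ => ?_
    exact prod_nonneg fun i _ => div_nonneg (Nat.cast_nonneg _) (Nat.cast_nonneg _)
  have hT1 : (1:ℝ) ≤ T.card := by exact_mod_cast card_pos.2 ⟨Z₀, hZ₀⟩
  have hTpos : (0:ℝ) < T.card := by linarith
  have hM0 : 0 < ∏ a, m a ^ cnt Z₀ a := by
    by_contra hcon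
    have h1 : ∏ a, m a ^ cnt Z₀ a ≤ 0 := not_lt.1 hcon
    have := mul_nonpos_of_nonneg_of_nonpos hTpos.le h1
    linarith
  have hQf : ∀ a, 0 < emp Z₀ a ^ cnt Z₀ a := by
    intro a
    rcases Nat.eq_zero_or_pos (cnt Z₀ a) with h0 | h0
    · rw [h0, pow_zero]; exact one_pos
    · refine pow_pos ?_ _
      rw [emp_eq]
      exact div_pos (by exact_mod_cast h0) hNr
  have hQ0 : 0 < ∏ a, emp Z₀ a ^ cnt Z₀ a := prod_pos fun a _ => hQf a
  have hMf : ∀ a, m a ^ cnt Z₀ a ≠ 0 := fun a => (prod_ne_zero_iff.1 hM0.ne') a (mem_univ a)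
  have hbMQ : b * ∏ a, emp Z₀ a ^ cnt Z₀ a ≤ ∏ a, m a ^ cnt Z₀ a := by
    calc _ ≤ ((T.card : ℝ) * ∏ a, m a ^ cnt Z₀ a) * ∏ a, emp Z₀ a ^ cnt Z₀ a :=
          mul_le_mul_of_nonneg_right hM hQ0.le
      _ = (∏ a, m a ^ cnt Z₀ a) * ((T.card : ℝ) * ∏ a, emp Z₀ a ^ cnt Z₀ a) := by ring
      _ ≤ (∏ a, m a ^ cnt Z₀ a) * 1 := mul_le_mul_of_nonneg_left hQ hM0.le
      _ = _ := mul_one _
  have hlog := Real.log_le_log (mul_pos hb0 hQ0) hbMQ
  rw [Real.log_mul hb0.ne' hQ0.ne', Real.log_prod (fun a _ => (hQf a).ne'),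
    Real.log_prod (fun a _ => hMf a)] at hlog
  simp only [Real.log_pow] at hlog
  have hlb : Real.log b = Real.log c - Fintype.card A * Real.log (N + 1) := by
    rw [hb, Real.log_div hc.ne' (by positivity), Real.log_pow]
  refine ⟨emp Z₀, hP, fun a => div_nonneg (Nat.cast_nonneg _) (Nat.cast_nonneg _), hsum1, ?_, ?_⟩
  · intro a ha
    have h1 := hMf a
    rw [ha] at h1
    rw [emp_eq]
    rcases Nat.eq_zero_or_pos (cnt Z₀ a) with h0 | h0
    · rw [h0]; simp
    · exact absurd (zero_pow h0.ne') h1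
  · rw [le_div_iff₀ hNr]
    have h1 : (∑ a, emp Z₀ a * Real.log (emp Z₀ a / m a)) * N =
        ∑ a, (cnt Z₀ a : ℝ) * Real.log (emp Z₀ a) - ∑ a, (cnt Z₀ a : ℝ) * Real.log (m a) := by
      rw [sum_mul, ← sum_sub_distrib]
      refine sum_congr rfl fun a _ => ?_
      rcases Nat.eq_zero_or_pos (cnt Z₀ a) with h0 | h0
      · rw [emp_eq, h0]; simp
      · have e1 : 0 < emp Z₀ a := by
          rw [emp_eq]
          exact div_pos (by exact_mod_cast h0) hNr
        have e2 : m a ≠ 0 := fun e => hMf a (by rw [e]; exact zero_pow h0.ne')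
        rw [Real.log_div e1.ne' e2]
        have e3 : emp Z₀ a * N = cnt Z₀ a := by
          rw [emp_eq, div_mul_cancel₀ _ hNr.ne']
        rw [← e3]
        ring
    rw [h1]
    linarith

end Vale.Agent.P050.Opt
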